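import Vale.Agent.P113.FracArith

namespace Vale.Agent.P113

/-- A uniformly computable family of real numbers. -/
def CompFam {α : Type} [Primcodable α] (r : α → ℝ) : Prop :=
  ∃ F : α × ℕ → Frac, Computable F ∧ ∀ a n, |rv (F (a, n)) - r a| ≤ 1 / ((n : ℝ) + 1)

variable {α β : Type} [Primcodable α] [Primcodable β]

theorem CompFam.of_eq {r s : α → ℝ} (hr : CompFam r) (h : ∀ a, r a = s a) : CompFam s := by
  have : r = s := funext h
  rwa [← this]

theorem CompFam.comp {r : β → ℝ} (hr : CompFam r) {g : α → β} (hg : Computable g) :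
    CompFam fun a => r (g a) := by
  obtain ⟨F, hF, h⟩ := hr
  exact ⟨fun p => F (g p.1, p.2), hF.comp ((hg.comp Computable.fst).pair Computable.snd),
    fun a n => h (g a) n⟩

theorem CompFam.rat {g : α → Frac} (hg : Computable g) : CompFam fun a => rv (g a) := by
  refine ⟨fun p => g p.1, hg.comp Computable.fst, fun a n => ?_⟩
  simp only [sub_self, abs_zero]
  positivity

theorem CompFam.const (c : Frac) : CompFam fun _ : α => rv c := CompFam.rat (Computable.const c)

theorem CompFam.natCast {g : α → ℕ} (hg : Computable g) : CompFam fun a => (g a : ℝ) := by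
  have := CompFam.rat (primrec_qnat.to_comp.comp hg)
  simpa [rv_qnat] using this

theorem CompFam.zero : CompFam fun _ : α => (0 : ℝ) := by
  have := CompFam.const (α := α) (qnat 0)
  simpa [rv_qnat] using this

theorem CompFam.one : CompFam fun _ : α => (1 : ℝ) := by
  have := CompFam.const (α := α) (qnat 1)
  simpa [rv_qnat] using this

theorem CompFam.neg {r : α → ℝ} (hr : CompFam r) : CompFam fun a => - r a := by
  obtain ⟨F, hF, h⟩ := hr
  refine ⟨fun p => qneg (F p), primrec_qneg.to_comp.comp hF, fun a n => ?_⟩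
  rw [rv_qneg, ← abs_neg, show -(-rv (F (a, n)) - -r a) = rv (F (a, n)) - r a by ring]
  exact h a n

theorem computable_idx {g : α × ℕ → ℕ} (hg : Computable g) :
    Computable fun p : α × ℕ => ((p.1, g p) : α × ℕ) := Computable.fst.pair hg

theorem CompFam.add {r s : α → ℝ} (hr : CompFam r) (hs : CompFam s) :
    CompFam fun a => r a + s a := by
  obtain ⟨F, hF, h⟩ := hr
  obtain ⟨G, hG, h'⟩ := hs
  have hi : Computable fun p : α × ℕ => 2 * p.2 + 1 :=
    (Primrec.nat_double_succ.comp Primrec.snd).to_comp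
  refine ⟨fun p => qadd (F (p.1, 2 * p.2 + 1)) (G (p.1, 2 * p.2 + 1)),
    (primrec_qadd.to_comp).comp (hF.comp (computable_idx hi)) (hG.comp (computable_idx hi)),
    fun a n => ?_⟩
  rw [rv_qadd]
  have h1 := h a (2 * n + 1)
  have h2 := h' a (2 * n + 1)
  have h3 : (1 : ℝ) / (((2 * n + 1 : ℕ) : ℝ) + 1) + 1 / (((2 * n + 1 : ℕ) : ℝ) + 1)
      = 1 / ((n : ℝ) + 1) := by
    push_cast
    have : (n : ℝ) + 1 ≠ 0 := by positivity
    have : 2 * (n : ℝ) + 1 + 1 ≠ 0 := by positivity
    field_simp
    ring
  calc |rv (F (a, 2 * n + 1)) + rv (G (a, 2 * n + 1)) - (r a + s a)|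
      = |(rv (F (a, 2 * n + 1)) - r a) + (rv (G (a, 2 * n + 1)) - s a)| := by ring_nf
    _ ≤ |rv (F (a, 2 * n + 1)) - r a| + |rv (G (a, 2 * n + 1)) - s a| := abs_add_le _ _
    _ ≤ _ := by rw [← h3]; exact add_le_add h1 h2

theorem CompFam.sub {r s : α → ℝ} (hr : CompFam r) (hs : CompFam s) :
    CompFam fun a => r a - s a := by
  simpa [sub_eq_add_neg] using hr.add hs.neg

theorem CompFam.mul {r s : α → ℝ} (hr : CompFam r) (hs : CompFam s) :
    CompFam fun a => r a * s a := by
  obtain ⟨F, hF, h⟩ := hr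
  obtain ⟨G, hG, h'⟩ := hs
  -- bounds
  let b : α → ℕ := fun a => qceil (F (a, 0)) + 1
  let c : α → ℕ := fun a => qceil (G (a, 0)) + 1
  have h0 : Computable fun a : α => ((a, 0) : α × ℕ) := Computable.id.pair (Computable.const 0)
  have hb : Computable b := Computable.succ.comp (primrec_qceil.to_comp.comp (hF.comp h0))
  have hc : Computable c := Computable.succ.comp (primrec_qceil.to_comp.comp (hG.comp h0))
  have hbr : ∀ a, |r a| ≤ b a := by
    intro a
    have h1 := h a 0
    have h2 := abs_rv_le (F (a, 0))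
    simp only [b]
    push_cast
    have h3 : |r a| ≤ |rv (F (a, 0))| + |rv (F (a, 0)) - r a| := by
      have := abs_sub_abs_le_abs_sub (r a) (rv (F (a, 0)))
      rw [abs_sub_comm] at this
      linarith
    norm_num at h1
    linarith
  have hcs : ∀ a, |s a| ≤ c a := by
    intro a
    have h1 := h' a 0
    have h2 := abs_rv_le (G (a, 0))
    simp only [c]
    push_cast
    have h3 : |s a| ≤ |rv (G (a, 0))| + |rv (G (a, 0)) - s a| := by
      have := abs_sub_abs_le_abs_sub (s a) (rv (G (a, 0)))
      rw [abs_sub_comm] at this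
      linarith
    norm_num at h1
    linarith
  let m : α × ℕ → ℕ := fun p => (p.2 + 1) * (b p.1 + 1 + c p.1)
  have hm : Computable m :=
    Primrec.nat_mul.to_comp.comp (Computable.succ.comp Computable.snd)
      (Primrec.nat_add.to_comp.comp (Computable.succ.comp (hb.comp Computable.fst))
        (hc.comp Computable.fst))
  refine ⟨fun p => qmul (F (p.1, m p)) (G (p.1, m p)),
    (primrec_qmul.to_comp).comp (hF.comp (computable_idx hm)) (hG.comp (computable_idx hm)),
    fun a n => ?_⟩
  rw [rv_qmul]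
  set M := m (a, n) with hM
  have h1 := h a M
  have h2 := h' a M
  have h3 : |rv (F (a, M))| ≤ b a + 1 := by
    have h4 : |rv (F (a, M))| ≤ |r a| + |rv (F (a, M)) - r a| := by
      have := abs_sub_abs_le_abs_sub (rv (F (a, M))) (r a)
      linarith
    have h5 : 1 / ((M : ℝ) + 1) ≤ 1 := by
      rw [div_le_one (by positivity)]
      linarith [(Nat.cast_nonneg M : (0:ℝ) ≤ _)]
    linarith [hbr a]
  have h6 : rv (F (a, M)) * rv (G (a, M)) - r a * s a
      = rv (F (a, M)) * (rv (G (a, M)) - s a) + (rv (F (a, M)) - r a) * s a := by ring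
  rw [h6]
  have h7 : |rv (F (a, M)) * (rv (G (a, M)) - s a) + (rv (F (a, M)) - r a) * s a|
      ≤ (b a + 1) * (1 / ((M : ℝ) + 1)) + (1 / ((M : ℝ) + 1)) * c a := by
    refine (abs_add_le _ _).trans ?_
    rw [abs_mul, abs_mul]
    exact add_le_add (mul_le_mul h3 h2 (abs_nonneg _) (by positivity))
      (mul_le_mul h1 (hcs a) (abs_nonneg _) (by positivity))
  refine h7.trans ?_
  have h8 : ((b a : ℝ) + 1) * (1 / ((M : ℝ) + 1)) + (1 / ((M : ℝ) + 1)) * c a
      = ((b a : ℝ) + 1 + c a) / ((M : ℝ) + 1) := by ring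
  rw [h8, div_le_div_iff₀ (by positivity) (by positivity)]
  have h9 : (M : ℝ) = ((n : ℝ) + 1) * ((b a : ℝ) + 1 + c a) := by
    simp only [hM, m]; push_cast; ring
  rw [h9]
  nlinarith

theorem CompFam.ite {r s : α → ℝ} {p : α → Bool} (hp : Computable p) (hr : CompFam r)
    (hs : CompFam s) : CompFam fun a => if p a = true then r a else s a := by
  obtain ⟨F, hF, h⟩ := hr
  obtain ⟨G, hG, h'⟩ := hs
  refine ⟨fun q => cond (p q.1) (F q) (G q), Computable.cond (hp.comp Computable.fst) hF hG,
    fun a n => ?_⟩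
  by_cases hpa : p a = true
  · simp only [hpa, if_true, cond_true]; exact h a n
  · have h1 : p a = false := by simpa using hpa
    simp only [h1, cond_false, Bool.false_eq_true, if_false]; exact h' a n

/-- Limits of uniformly computable rational sequences with a fixed rate. -/
theorem CompFam.of_lim {r : α → ℝ} {g : α × ℕ → Frac} (hg : Computable g)
    (h : ∀ a n, |rv (g (a, n)) - r a| ≤ 1 / ((n : ℝ) + 1)) : CompFam r := ⟨g, hg, h⟩

/-- Limits with a rate given by a computable family of constants. -/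
theorem CompFam.of_lim' {r : α → ℝ} {g : α × ℕ → Frac} {K : α → ℕ} (hg : Computable g)
    (hK : Computable K)
    (h : ∀ a n, |rv (g (a, n)) - r a| ≤ K a / ((n : ℝ) + 1)) : CompFam r := by
  have hi : Computable fun p : α × ℕ => (p.2 + 1) * (K p.1 + 1) :=
    Primrec.nat_mul.to_comp.comp (Computable.succ.comp Computable.snd)
      (Computable.succ.comp (hK.comp Computable.fst))
  refine ⟨fun p => g (p.1, (p.2 + 1) * (K p.1 + 1)), hg.comp (computable_idx hi), fun a n => ?_⟩
  refine (h a _).trans ?_
  rw [div_le_div_iff₀ (by positivity) (by positivity)]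
  push_cast
  have : (0 : ℝ) ≤ K a := Nat.cast_nonneg _
  have : (0 : ℝ) ≤ n := Nat.cast_nonneg _
  nlinarith

/-- Sums over initial segments. -/
theorem CompFam.sum_range {r : α × ℕ → ℝ} (hr : CompFam r) {N : α → ℕ} (hN : Computable N) :
    CompFam fun a => ∑ i ∈ Finset.range (N a), r (a, i) := by
  obtain ⟨F, hF, h⟩ := hr
  -- partial sums with precision `m`
  let S : (α × ℕ) → ℕ → Frac := fun q N =>
    Nat.rec (0, 0, 0) (fun i acc => qadd acc (F ((q.1, i), q.2))) N
  have hS : Computable₂ S := by
    have h1 : Computable fun p : ((α × ℕ) × ℕ) => S p.1 p.2 := by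
      refine Computable.nat_rec (f := fun p : ((α × ℕ) × ℕ) => p.2)
        (g := fun _ => ((0, 0, 0) : Frac))
        (h := fun (p : (α × ℕ) × ℕ) (q : ℕ × Frac) => qadd q.2 (F ((p.1.1, q.1), p.1.2)))
        Computable.snd (Computable.const _) ?_
      have a1 : Computable fun z : ((α × ℕ) × ℕ) × (ℕ × Frac) => z.2.2 :=
        Computable.snd.comp Computable.snd
      have a2 : Computable fun z : ((α × ℕ) × ℕ) × (ℕ × Frac) =>
          (((z.1.1.1, z.2.1), z.1.1.2) : (α × ℕ) × ℕ) :=
        ((Computable.fst.comp (Computable.fst.comp Computable.fst)).pair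
          (Computable.fst.comp Computable.snd)).pair
          (Computable.snd.comp (Computable.fst.comp Computable.fst))
      exact primrec_qadd.to_comp.comp a1 (hF.comp a2)
    exact h1
  have hSval : ∀ a m N, rv (S (a, m) N) = ∑ i ∈ Finset.range N, rv (F ((a, i), m)) := by
    intro a m N
    induction N with
    | zero => simp [S, rv_def]
    | succ k ih =>
      rw [Finset.sum_range_succ, ← ih]
      simp only [S]
      rw [rv_qadd]
  have hi : Computable fun p : α × ℕ => (p.2 + 1) * (N p.1 + 1) :=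
    Primrec.nat_mul.to_comp.comp (Computable.succ.comp Computable.snd)
      (Computable.succ.comp (hN.comp Computable.fst))
  refine ⟨fun p => S (p.1, (p.2 + 1) * (N p.1 + 1)) (N p.1),
    hS.comp (computable_idx hi) (hN.comp Computable.fst), fun a n => ?_⟩
  dsimp only
  rw [hSval, ← Finset.sum_sub_distrib]
  refine (Finset.abs_sum_le_sum_abs _ _).trans ?_
  refine (Finset.sum_le_sum fun i _ => h (a, i) _).trans ?_
  rw [Finset.sum_const, Finset.card_range, nsmul_eq_mul, mul_one_div,
    div_le_div_iff₀ (by positivity) (by positivity)]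
  push_cast
  have : (0 : ℝ) ≤ N a := Nat.cast_nonneg _
  have : (0 : ℝ) ≤ n := Nat.cast_nonneg _
  nlinarith

end Vale.Agent.P113
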