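import Vale.Agent.P113.Tensor

open MeasureTheory Set Filter Topology

namespace Vale.Agent.P113

abbrev Query : Type := Fin 3 × List (Option (Fin 3)) × Frac × (Frac × Frac × Frac)

/-- The value asked for by a query. -/
noncomputable def ask (f : VField) (q : Query) : ℝ :=
  mixed q.2.1 (fun t x => f t x q.1) (rv q.2.2.1)
    (proj ![rv q.2.2.2.1, rv q.2.2.2.2.1, rv q.2.2.2.2.2])

theorem exists_compiler {α : Type} [Primcodable α] {f : α → VField} {r : α × Query → ℝ}
    (hr : CompFam r) (h : ∀ a q, 0 ≤ rv q.2.2.1 → r (a, q) = ask (f a) q) :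
    ∃ comp : α → Nat.Partrec.Code, Computable comp ∧ ∀ a, Computes (comp a) (f a) := by
  obtain ⟨F, hF, hF'⟩ := hr
  -- the function to be computed
  let G : α × (Fin 3 × List (Option (Fin 3)) × Frac × (Frac × Frac × Frac) × Frac) → Frac :=
    fun p => F ((p.1, (p.2.1, p.2.2.1, p.2.2.2.1, p.2.2.2.2.1)), p.2.2.2.2.2.2.2)
  have hG : Computable G := by
    have a0 : Computable fun p : α × (Fin 3 × List (Option (Fin 3)) × Frac ×
        (Frac × Frac × Frac) × Frac) => p.1 := Computable.fst
    have a1 : Computable fun p : α × (Fin 3 × List (Option (Fin 3)) × Frac ×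
        (Frac × Frac × Frac) × Frac) => p.2.1 := Computable.fst.comp Computable.snd
    have a2 : Computable fun p : α × (Fin 3 × List (Option (Fin 3)) × Frac ×
        (Frac × Frac × Frac) × Frac) => p.2.2.1 :=
      Computable.fst.comp (Computable.snd.comp Computable.snd)
    have a3 : Computable fun p : α × (Fin 3 × List (Option (Fin 3)) × Frac ×
        (Frac × Frac × Frac) × Frac) => p.2.2.2.1 :=
      Computable.fst.comp (Computable.snd.comp (Computable.snd.comp Computable.snd))
    have a4 : Computable fun p : α × (Fin 3 × List (Option (Fin 3)) × Frac ×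
        (Frac × Frac × Frac) × Frac) => p.2.2.2.2.1 :=
      Computable.fst.comp (Computable.snd.comp (Computable.snd.comp
        (Computable.snd.comp Computable.snd)))
    have a5 : Computable fun p : α × (Fin 3 × List (Option (Fin 3)) × Frac ×
        (Frac × Frac × Frac) × Frac) => p.2.2.2.2.2.2.2 :=
      Computable.snd.comp (Computable.snd.comp (Computable.snd.comp (Computable.snd.comp
        (Computable.snd.comp (Computable.snd.comp Computable.snd)))))
    exact hF.comp ((a0.pair (a1.pair (a2.pair (a3.pair a4)))).pair a5)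
  obtain ⟨c, hc⟩ := Nat.Partrec.Code.exists_code.1 hG
  refine ⟨fun a => Nat.Partrec.Code.curry c (Encodable.encode a),
    (Nat.Partrec.Code.primrec₂_curry.comp (Primrec.const c) Primrec.encode).to_comp, ?_⟩
  intro a k l t x ε ht hε
  refine ⟨G (a, (k, l, t, x, ε)), ?_, ?_⟩
  · rw [Nat.Partrec.Code.eval_curry]
    have h1 : Nat.pair (Encodable.encode a) (Encodable.encode (k, l, t, x, ε))
        = Encodable.encode (a, (k, l, t, x, ε)) :=
      (Encodable.encode_prod_val a (k, l, t, x, ε)).symm
    rw [h1, hc]
    simp only [Encodable.encodek, Part.coe_some, Part.bind_some]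
    simp
  · have ht' : 0 ≤ rv t := by
      have : (0 : ℝ) ≤ ((ratVal t : ℚ) : ℝ) := by exact_mod_cast ht
      exact this
    have hε' : 0 < rv ε := by
      have : (0 : ℝ) < ((ratVal ε : ℚ) : ℝ) := by exact_mod_cast hε
      exact this
    have h1 := hF' (a, (k, l, t, x)) ε.2.2
    rw [h a (k, l, t, x) ht'] at h1
    exact h1.trans (le_rv_of_pos ε hε')

/-- Constant functions on the circle. -/
def oneFam : ℕ → UnitAddCircle → ℝ := fun n _ => if n = 0 then 1 else 0

theorem circleFam_oneFam : CircleFam oneFam := by
  intro n x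
  simp only [oneFam, Nat.succ_ne_zero, if_false]
  exact hasDerivAt_const _ _

theorem circleFam_zero : CircleFam (fun _ _ => 0) := fun _ _ => hasDerivAt_const _ _

theorem timeFam_zero : TimeFam (fun _ _ => 0) := fun _ _ => hasDerivAt_const _ _

theorem compFam_oneFam {α : Type} [Primcodable α] {n : α → ℕ} (hn : Computable n)
    (x : α → UnitAddCircle) : CompFam fun a => oneFam (n a) (x a) := by
  have h1 : Computable fun a => decide (n a = 0) :=
    (Primrec.eq.comp Primrec.id (Primrec.const 0)).decide.to_comp.comp hn
  refine (CompFam.ite h1 CompFam.one CompFam.zero).of_eq fun a => ?_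
  by_cases h : n a = 0 <;> simp [oneFam, h]

theorem primrec_count (d : Option (Fin 3)) :
    Primrec fun l : List (Option (Fin 3)) => l.count d := by
  have h1 : Primrec fun l : List (Option (Fin 3)) =>
      l.foldr (fun e n => if e = d then n + 1 else n) 0 := by
    refine Primrec.list_foldr (f := fun l : List (Option (Fin 3)) => l) (g := fun _ => 0)
      (h := fun (_ : List (Option (Fin 3))) (q : Option (Fin 3) × ℕ) =>
        if q.1 = d then q.2 + 1 else q.2) Primrec.id (Primrec.const 0) ?_
    exact Primrec.ite (Primrec.eq.comp (Primrec.fst.comp Primrec.snd) (Primrec.const d))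
      (Primrec.succ.comp (Primrec.snd.comp Primrec.snd)) (Primrec.snd.comp Primrec.snd)
  refine h1.of_eq fun l => ?_
  induction l with
  | nil => rfl
  | cons e l ih =>
    rw [List.foldr_cons, ih, List.count_cons]
    by_cases h : e = d <;> simp [h]

end Vale.Agent.P113
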