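import Mathlib

open MeasureTheory Set

namespace Vale.Agent.P113

/-- The flat torus `(ℝ/ℤ)³`. -/
abbrev T3 : Type := Fin 3 → UnitAddCircle

/-- The quotient map from `ℝ³` to the torus. -/
def proj (x : Fin 3 → ℝ) : T3 := fun i => (x i : UnitAddCircle)

/-- The point `x + s e_i` of the torus. -/
def move (i : Fin 3) (s : ℝ) (x : T3) : T3 := x + proj (Pi.single i s)

/-- Time-dependent scalar fields on the torus. -/
abbrev SField : Type := ℝ → T3 → ℝ

/-- Time-dependent vector fields on the torus. -/
abbrev VField : Type := ℝ → T3 → Fin 3 → ℝ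

/-- The scalar field is smooth on `[0,∞) × 𝕋³`. -/
def SmoothS (g : SField) : Prop :=
  ContDiffOn ℝ ((⊤ : ℕ∞) : WithTop ℕ∞)
    (fun z : ℝ × (Fin 3 → ℝ) => g z.1 (proj z.2)) (Ici 0 ×ˢ univ)

/-- The vector field is smooth on `[0,∞) × 𝕋³`. -/
def SmoothV (g : VField) : Prop := ∀ k, SmoothS (fun t x => g t x k)

/-- The scalar field is continuous on `[0,T] × 𝕋³`. -/
def ContS (T : ℝ) (g : SField) : Prop :=
  ContinuousOn (fun z : ℝ × T3 => g z.1 z.2) (Icc 0 T ×ˢ univ)

/-- `(u, p)` is a classical solution on `[0,T] × 𝕋³`, starting from rest, of the Navier-Stokes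
equations with viscosity `ν` and force `f`, the pressure having spatial mean zero.
Here `ut` is the time derivative of `u`, `ux i` and `uxx i j` are the first and second order
spatial derivatives of `u` and `px i` are the spatial derivatives of `p`. -/
def IsClassicalSolution (ν : ℝ) (f : VField) (T : ℝ) (u : VField) (p : SField) : Prop :=
  ∃ (ut : VField) (ux : Fin 3 → VField) (uxx : Fin 3 → Fin 3 → VField) (px : Fin 3 → SField),
    (∀ k, ContS T (fun t x => u t x k)) ∧
    (∀ k, ContS T (fun t x => ut t x k)) ∧
    (∀ i k, ContS T (fun t x => ux i t x k)) ∧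
    (∀ i j k, ContS T (fun t x => uxx i j t x k)) ∧
    ContS T p ∧
    (∀ i, ContS T (px i)) ∧
    (∀ t ∈ Icc 0 T, ∀ x,
      HasDerivWithinAt (fun s => u s x) (ut t x) (Icc 0 T) t ∧
      (∀ i, HasDerivAt (fun s => u t (move i s x)) (ux i t x) 0) ∧
      (∀ i j, HasDerivAt (fun s => ux i t (move j s x)) (uxx i j t x) 0) ∧
      (∀ i, HasDerivAt (fun s => p t (move i s x)) (px i t x) 0)) ∧
    (∀ t ∈ Icc 0 T, ∀ x, ∀ k,
      ut t x k + ∑ i, u t x i * ux i t x k = - px k t x + ν * ∑ i, uxx i i t x k + f t x k) ∧
    (∀ t ∈ Icc 0 T, ∀ x, ∑ i, ux i t x i = 0) ∧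
    (∀ x, u 0 x = 0) ∧
    (∀ t ∈ Icc 0 T, ∫ x, p t x = 0)

/-- `X` is a trajectory, on `[0,∞)`, of the velocity field `u` starting from `a`:
it lifts to a path `Y` in `ℝ³` with `Y' (t) = u (t, X (t))`. -/
def IsTrajectory (u : VField) (a : T3) (X : ℝ → T3) : Prop :=
  X 0 = a ∧ ∃ Y : ℝ → Fin 3 → ℝ, ∀ t, 0 ≤ t →
    X t = proj (Y t) ∧ HasDerivWithinAt Y (u t (X t)) (Ici 0) t

/-- Names for rational numbers: every rational number is `ratVal c` for some `c`. -/
abbrev Frac : Type := ℕ × ℕ × ℕ

/-- The rational number named by `c`. -/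
def ratVal (c : Frac) : ℚ := ((c.1 : ℚ) - (c.2.1 : ℚ)) / ((c.2.2 : ℚ) + 1)

/-- A real number is computable if some algorithm approximates it to any accuracy. -/
def ComputableReal (ν : ℝ) : Prop :=
  ∃ s : ℕ → Frac, Computable s ∧ ∀ n, |((ratVal (s n) : ℚ) : ℝ) - ν| ≤ 1 / ((n : ℝ) + 1)

/-- Iterated mixed derivatives of a scalar field. The list gives the directions, `none` is the
time direction (one sided at `t = 0`) and `some i` is the direction `x_i`. -/
noncomputable def mixed : List (Option (Fin 3)) → SField → SField
  | [], g => g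
  | none :: l, g => fun t x => derivWithin (fun s => mixed l g s x) (Ici 0) t
  | some i :: l, g => fun t x => deriv (fun s => mixed l g t (move i s x)) 0

/-- The program `c` returns each mixed derivative of each component of `f` at each rational point
of `[0,∞) × 𝕋³` to any prescribed rational accuracy. -/
def Computes (c : Nat.Partrec.Code) (f : VField) : Prop :=
  ∀ (k : Fin 3) (l : List (Option (Fin 3))) (t : Frac) (x : Frac × Frac × Frac) (ε : Frac),
    0 ≤ ratVal t → 0 < ratVal ε →
    ∃ r : Frac, Encodable.encode r ∈ c.eval (Encodable.encode (k, l, t, x, ε)) ∧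
      |((ratVal r : ℚ) : ℝ) - mixed l (fun t x => f t x k) (ratVal t : ℝ)
        (proj ![(ratVal x.1 : ℝ), (ratVal x.2.1 : ℝ), (ratVal x.2.2 : ℝ)])| ≤ (ratVal ε : ℝ)

/-- A deterministic one-tape Turing machine, with symbols `0, …, symbols` of which `0` is the
blank, and states `0, …, states` of which `0` is the initial one. In state `q` reading `a` it goes
to the state `(rule q a).1`, writes `(rule q a).2.1` and moves its head by
`(rule q a).2.2 - 1 ∈ {-1, 0, 1}`. -/
structure Machine where
  symbols : ℕ
  states : ℕ
  halting : Fin (states + 1) → Bool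
  rule : Fin (states + 1) → Fin (symbols + 1) → Fin (states + 1) × Fin (symbols + 1) × Fin 3

/-- A configuration: the state, the position of the head, the two-sided tape. -/
structure Config (M : Machine) where
  state : Fin (M.states + 1)
  head : ℤ
  tape : ℤ → Fin (M.symbols + 1)

/-- Input words. -/
abbrev Machine.Word (M : Machine) : Type := List (Fin (M.symbols + 1))

/-- The initial configuration: `w` is on an otherwise blank tape, the head at its first cell. -/
def Machine.init (M : Machine) (w : M.Word) : Config M where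
  state := 0
  head := 0
  tape := fun z => if 0 ≤ z then w.getD z.toNat 0 else 0

/-- One step of the machine. -/
def Machine.step (M : Machine) (c : Config M) : Config M :=
  let r := M.rule c.state (c.tape c.head)
  { state := r.1
    head := c.head + ((r.2.2 : ℕ) : ℤ) - 1
    tape := Function.update c.tape c.head r.2.1 }

/-- The machine reaches a halting state after finitely many steps, possibly none. -/
def Machine.HaltsOn (M : Machine) (w : M.Word) : Prop :=
  ∃ n : ℕ, M.halting ((M.step^[n]) (M.init w)).state = true

/-- Finite descriptions of machines. -/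
abbrev Desc : Type := ℕ × ℕ × List Bool × List (List (ℕ × ℕ × ℕ))

/-- The finite description of a machine: the list of its halting states and its table. -/
def Machine.desc (M : Machine) : Desc :=
  (M.symbols, M.states, List.ofFn M.halting,
    List.ofFn fun q => List.ofFn fun a =>
      (((M.rule q a).1 : ℕ), ((M.rule q a).2.1 : ℕ), ((M.rule q a).2.2 : ℕ)))

/-- The finite description of an input word. -/
def Machine.wordDesc (M : Machine) (w : M.Word) : List ℕ := w.map Fin.val

end Vale.Agent.P113
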