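import Vale.Agent.P113.Defs

namespace Vale.Agent.P113

/-- the real value of a name of a rational number -/
noncomputable def rv (c : Frac) : ℝ := ((ratVal c : ℚ) : ℝ)

theorem rv_def (c : Frac) : rv c = ((c.1 : ℝ) - (c.2.1 : ℝ)) / ((c.2.2 : ℝ) + 1) := by
  simp [rv, ratVal]

def qnat (n : ℕ) : Frac := (n, 0, 0)
def qneg (a : Frac) : Frac := (a.2.1, a.1, a.2.2)
def qadd (a b : Frac) : Frac :=
  (a.1 * (b.2.2 + 1) + b.1 * (a.2.2 + 1), a.2.1 * (b.2.2 + 1) + b.2.1 * (a.2.2 + 1),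
    (a.2.2 + 1) * (b.2.2 + 1) - 1)
def qsub (a b : Frac) : Frac := qadd a (qneg b)
def qmul (a b : Frac) : Frac :=
  (a.1 * b.1 + a.2.1 * b.2.1, a.1 * b.2.1 + a.2.1 * b.1, (a.2.2 + 1) * (b.2.2 + 1) - 1)
/-- inverse -/
def qinv (a : Frac) : Frac :=
  (if a.2.1 < a.1 then a.2.2 + 1 else 0, if a.1 < a.2.1 then a.2.2 + 1 else 0,
    (a.1 - a.2.1) + (a.2.1 - a.1) - 1)
/-- a natural number at least the absolute value -/
def qceil (a : Frac) : ℕ := a.1 + a.2.1

theorem rv_qnat (n : ℕ) : rv (qnat n) = n := by simp [rv_def, qnat]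

theorem rv_qneg (a : Frac) : rv (qneg a) = - rv a := by
  simp only [rv_def, qneg]; ring

theorem cast_den (a b : Frac) :
    (((a.2.2 + 1) * (b.2.2 + 1) - 1 : ℕ) : ℝ) + 1 = ((a.2.2 : ℝ) + 1) * ((b.2.2 : ℝ) + 1) := by
  have h : 1 ≤ (a.2.2 + 1) * (b.2.2 + 1) := Nat.one_le_iff_ne_zero.2 (by positivity)
  rw [Nat.cast_sub h]; push_cast; ring

theorem rv_qadd (a b : Frac) : rv (qadd a b) = rv a + rv b := by
  simp only [rv_def, qadd, cast_den]
  have h1 : ((a.2.2 : ℝ) + 1) ≠ 0 := by positivity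
  have h2 : ((b.2.2 : ℝ) + 1) ≠ 0 := by positivity
  field_simp
  push_cast
  ring

theorem rv_qsub (a b : Frac) : rv (qsub a b) = rv a - rv b := by
  rw [qsub, rv_qadd, rv_qneg, sub_eq_add_neg]

theorem rv_qmul (a b : Frac) : rv (qmul a b) = rv a * rv b := by
  simp only [rv_def, qmul, cast_den]
  have h1 : ((a.2.2 : ℝ) + 1) ≠ 0 := by positivity
  have h2 : ((b.2.2 : ℝ) + 1) ≠ 0 := by positivity
  field_simp
  push_cast
  ring

theorem rv_qinv (a : Frac) : rv (qinv a) = (rv a)⁻¹ := by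
  simp only [rv_def, qinv]
  have h1 : ((a.2.2 : ℝ) + 1) ≠ 0 := by positivity
  rcases lt_trichotomy a.1 a.2.1 with h | h | h
  · have h2 : ¬ a.2.1 < a.1 := by omega
    have h3 : a.1 - a.2.1 + (a.2.1 - a.1) - 1 = a.2.1 - a.1 - 1 := by omega
    have h4 : ((a.2.1 - a.1 - 1 : ℕ) : ℝ) + 1 = (a.2.1 : ℝ) - a.1 := by
      have : a.2.1 - a.1 - 1 + 1 + a.1 = a.2.1 := by omega
      have h5 := congrArg (Nat.cast (R := ℝ)) this
      push_cast at h5
      linarith
    rw [h3, h4]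
    have h6 : (a.2.1 : ℝ) - a.1 ≠ 0 := by
      have : (a.1 : ℝ) < a.2.1 := by exact_mod_cast h
      linarith
    have h7 : (a.1 : ℝ) - a.2.1 ≠ 0 := by
      have : (a.1 : ℝ) < a.2.1 := by exact_mod_cast h
      linarith
    simp only [h, h2, if_true, if_false]
    push_cast
    rw [inv_div]
    field_simp
    ring
  · have h2 : ¬ a.2.1 < a.1 := by omega
    have h3 : ¬ a.1 < a.2.1 := by omega
    simp [h]
  · have h2 : ¬ a.1 < a.2.1 := by omega
    have h3 : a.1 - a.2.1 + (a.2.1 - a.1) - 1 = a.1 - a.2.1 - 1 := by omega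
    have h4 : ((a.1 - a.2.1 - 1 : ℕ) : ℝ) + 1 = (a.1 : ℝ) - a.2.1 := by
      have : a.1 - a.2.1 - 1 + 1 + a.2.1 = a.1 := by omega
      have h5 := congrArg (Nat.cast (R := ℝ)) this
      push_cast at h5
      linarith
    rw [h3, h4]
    simp only [h, h2, if_true, if_false]
    push_cast
    rw [inv_div]
    simp

theorem abs_rv_le (a : Frac) : |rv a| ≤ qceil a := by
  rw [rv_def, abs_div]
  have h1 : (0 : ℝ) < (a.2.2 : ℝ) + 1 := by positivity
  rw [abs_of_pos h1, div_le_iff₀ h1]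
  have h2 : |(a.1 : ℝ) - a.2.1| ≤ (a.1 : ℝ) + a.2.1 := by
    rw [abs_le]; constructor <;> linarith [(Nat.cast_nonneg a.1 : (0:ℝ) ≤ _),
      (Nat.cast_nonneg a.2.1 : (0:ℝ) ≤ _)]
  have h3 : (0 : ℝ) ≤ (a.1 : ℝ) + a.2.1 := by positivity
  have h4 : (1 : ℝ) ≤ (a.2.2 : ℝ) + 1 := by
    linarith [(Nat.cast_nonneg a.2.2 : (0:ℝ) ≤ _)]
  simp only [qceil]
  push_cast
  nlinarith

theorem rv_pos_iff (a : Frac) : 0 < rv a ↔ a.2.1 < a.1 := by
  rw [rv_def]
  have h1 : (0 : ℝ) < (a.2.2 : ℝ) + 1 := by positivity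
  rw [div_pos_iff_of_pos_right h1, sub_pos]
  exact_mod_cast Iff.rfl

theorem le_rv_of_pos (a : Frac) (h : 0 < rv a) : 1 / ((a.2.2 : ℝ) + 1) ≤ rv a := by
  rw [rv_pos_iff] at h
  rw [rv_def]
  have h1 : (0 : ℝ) < (a.2.2 : ℝ) + 1 := by positivity
  apply div_le_div_of_nonneg_right _ h1.le
  have : (a.2.1 : ℝ) + 1 ≤ a.1 := by exact_mod_cast h
  linarith

/-- test `rv a < rv b` -/
def qlt (a b : Frac) : Bool := decide ((qsub b a).2.1 < (qsub b a).1)

theorem qlt_iff (a b : Frac) : qlt a b = true ↔ rv a < rv b := by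
  rw [qlt, decide_eq_true_iff, ← rv_pos_iff, rv_qsub, sub_pos]

theorem primrec_den (f g : Frac × Frac → ℕ) (hf : Primrec f) (hg : Primrec g) :
    Primrec fun p => (f p + 1) * (g p + 1) - 1 :=
  Primrec.pred.comp (Primrec.nat_mul.comp (Primrec.succ.comp hf) (Primrec.succ.comp hg))

theorem primrec_qnat : Primrec qnat :=
  Primrec.pair Primrec.id (Primrec.const (0, 0))

theorem primrec_qneg : Primrec qneg :=
  Primrec.pair (Primrec.fst.comp Primrec.snd)
    (Primrec.pair Primrec.fst (Primrec.snd.comp Primrec.snd))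

theorem primrec_qadd : Primrec₂ qadd := by
  have a1 : Primrec fun p : Frac × Frac => p.1.1 := Primrec.fst.comp Primrec.fst
  have a2 : Primrec fun p : Frac × Frac => p.1.2.1 :=
    Primrec.fst.comp (Primrec.snd.comp Primrec.fst)
  have a3 : Primrec fun p : Frac × Frac => p.1.2.2 :=
    Primrec.snd.comp (Primrec.snd.comp Primrec.fst)
  have b1 : Primrec fun p : Frac × Frac => p.2.1 := Primrec.fst.comp Primrec.snd
  have b2 : Primrec fun p : Frac × Frac => p.2.2.1 :=
    Primrec.fst.comp (Primrec.snd.comp Primrec.snd)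
  have b3 : Primrec fun p : Frac × Frac => p.2.2.2 :=
    Primrec.snd.comp (Primrec.snd.comp Primrec.snd)
  exact Primrec.pair
    (Primrec.nat_add.comp (Primrec.nat_mul.comp a1 (Primrec.succ.comp b3))
      (Primrec.nat_mul.comp b1 (Primrec.succ.comp a3)))
    (Primrec.pair
      (Primrec.nat_add.comp (Primrec.nat_mul.comp a2 (Primrec.succ.comp b3))
        (Primrec.nat_mul.comp b2 (Primrec.succ.comp a3)))
      (primrec_den _ _ a3 b3))

theorem primrec_qsub : Primrec₂ qsub :=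
  primrec_qadd.comp Primrec.fst (primrec_qneg.comp Primrec.snd)

theorem primrec_qmul : Primrec₂ qmul := by
  have a1 : Primrec fun p : Frac × Frac => p.1.1 := Primrec.fst.comp Primrec.fst
  have a2 : Primrec fun p : Frac × Frac => p.1.2.1 :=
    Primrec.fst.comp (Primrec.snd.comp Primrec.fst)
  have a3 : Primrec fun p : Frac × Frac => p.1.2.2 :=
    Primrec.snd.comp (Primrec.snd.comp Primrec.fst)
  have b1 : Primrec fun p : Frac × Frac => p.2.1 := Primrec.fst.comp Primrec.snd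
  have b2 : Primrec fun p : Frac × Frac => p.2.2.1 :=
    Primrec.fst.comp (Primrec.snd.comp Primrec.snd)
  have b3 : Primrec fun p : Frac × Frac => p.2.2.2 :=
    Primrec.snd.comp (Primrec.snd.comp Primrec.snd)
  exact Primrec.pair
    (Primrec.nat_add.comp (Primrec.nat_mul.comp a1 b1) (Primrec.nat_mul.comp a2 b2))
    (Primrec.pair
      (Primrec.nat_add.comp (Primrec.nat_mul.comp a1 b2) (Primrec.nat_mul.comp a2 b1))
      (primrec_den _ _ a3 b3))

theorem primrec_qinv : Primrec qinv := by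
  have a1 : Primrec fun p : Frac => p.1 := Primrec.fst
  have a2 : Primrec fun p : Frac => p.2.1 := Primrec.fst.comp Primrec.snd
  have a3 : Primrec fun p : Frac => p.2.2 := Primrec.snd.comp Primrec.snd
  exact Primrec.pair
    (Primrec.ite (Primrec.nat_lt.comp a2 a1) (Primrec.succ.comp a3) (Primrec.const 0))
    (Primrec.pair
      (Primrec.ite (Primrec.nat_lt.comp a1 a2) (Primrec.succ.comp a3) (Primrec.const 0))
      (Primrec.pred.comp (Primrec.nat_add.comp (Primrec.nat_sub.comp a1 a2)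
        (Primrec.nat_sub.comp a2 a1))))

theorem primrec_qceil : Primrec qceil :=
  Primrec.nat_add.comp Primrec.fst (Primrec.fst.comp Primrec.snd)

theorem primrec_qlt : Primrec₂ qlt := by
  have h : Primrec fun p : Frac × Frac => qsub p.2 p.1 :=
    primrec_qsub.comp Primrec.snd Primrec.fst
  exact (Primrec.nat_lt.comp (Primrec.fst.comp (Primrec.snd.comp h)) (Primrec.fst.comp h)).decide

end Vale.Agent.P113
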