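import Vale.Agent.P113.Torus

open MeasureTheory Set Filter Topology

namespace Vale.Agent.P113

theorem pointwise_energy (ν C : ℝ) (hν : 0 ≤ ν) (v u vt ut f qx px : Fin 3 → ℝ)
    (vx ux vxx uxx : Fin 3 → Fin 3 → ℝ) (π : ℝ)
    (hv : ∀ k, vt k + ∑ i, v i * vx i k = - qx k + ν * ∑ i, vxx i k + f k)
    (hu : ∀ k, ut k + ∑ i, u i * ux i k = - px k + ν * ∑ i, uxx i k + f k)
    (dv : ∑ i, vx i i = 0) (du : ∑ i, ux i i = 0) (hC : ∀ i k, |ux i k| ≤ C) :
    ∑ k, 2 * (v k - u k) * (vt k - ut k)
      + ∑ i, ∑ k, (vx i i * (v k - u k) ^ 2 + v i * (2 * (v k - u k) * (vx i k - ux i k)))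
      + 2 * ∑ k, ((vx k k - ux k k) * π + (v k - u k) * (qx k - px k))
      - 2 * ν * ∑ i, ∑ k, ((vx i k - ux i k) * (vx i k - ux i k)
        + (v k - u k) * (vxx i k - uxx i k))
      ≤ 6 * C * ∑ k, (v k - u k) ^ 2 := by
  have h1 : ∑ k, 2 * (v k - u k) * (vt k - ut k)
      + ∑ i, ∑ k, (vx i i * (v k - u k) ^ 2 + v i * (2 * (v k - u k) * (vx i k - ux i k)))
      + 2 * ∑ k, ((vx k k - ux k k) * π + (v k - u k) * (qx k - px k))
      - 2 * ν * ∑ i, ∑ k, ((vx i k - ux i k) * (vx i k - ux i k)
        + (v k - u k) * (vxx i k - uxx i k))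
      = ∑ k, ∑ i, (-2 * (v k - u k) * (v i - u i) * ux i k)
        - 2 * ν * ∑ i, ∑ k, (vx i k - ux i k) ^ 2 := by
    have e0 := hv 0
    have e1 := hv 1
    have e2 := hv 2
    have g0 := hu 0
    have g1 := hu 1
    have g2 := hu 2
    simp only [Fin.sum_univ_three] at e0 e1 e2 g0 g1 g2 dv du ⊢
    linear_combination (2 * (v 0 - u 0)) * (e0 - g0) + (2 * (v 1 - u 1)) * (e1 - g1)
      + (2 * (v 2 - u 2)) * (e2 - g2)
      + ((v 0 - u 0) ^ 2 + (v 1 - u 1) ^ 2 + (v 2 - u 2) ^ 2) * dv + 2 * π * (dv - du)
  rw [h1]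
  have h2 : ∀ k i, -2 * (v k - u k) * (v i - u i) * ux i k
      ≤ C * ((v k - u k) ^ 2 + (v i - u i) ^ 2) := by
    intro k i
    have h3 := hC i k
    have h4 : |2 * (v k - u k) * (v i - u i)| ≤ (v k - u k) ^ 2 + (v i - u i) ^ 2 := by
      rw [abs_le]
      constructor <;> nlinarith [sq_nonneg (v k - u k - (v i - u i)),
        sq_nonneg (v k - u k + (v i - u i))]
    calc -2 * (v k - u k) * (v i - u i) * ux i k
        = -((2 * (v k - u k) * (v i - u i)) * ux i k) := by ring
      _ ≤ |(2 * (v k - u k) * (v i - u i)) * ux i k| := neg_le_abs _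
      _ = |2 * (v k - u k) * (v i - u i)| * |ux i k| := abs_mul _ _
      _ ≤ ((v k - u k) ^ 2 + (v i - u i) ^ 2) * C := by
        apply mul_le_mul h4 h3 (abs_nonneg _) (by positivity)
      _ = C * ((v k - u k) ^ 2 + (v i - u i) ^ 2) := mul_comm _ _
  have h5 : ∑ k, ∑ i, (-2 * (v k - u k) * (v i - u i) * ux i k)
      ≤ ∑ k, ∑ i, C * ((v k - u k) ^ 2 + (v i - u i) ^ 2) :=
    Finset.sum_le_sum fun k _ => Finset.sum_le_sum fun i _ => h2 k i
  have h6 : ∑ k, ∑ i, C * ((v k - u k) ^ 2 + (v i - u i) ^ 2)
      = 6 * C * ∑ k, (v k - u k) ^ 2 := by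
    simp only [Fin.sum_univ_three]; ring
  have h7 : 0 ≤ 2 * ν * ∑ i, ∑ k, (vx i k - ux i k) ^ 2 := by positivity
  linarith

theorem eq_of_classical {ν T : ℝ} (hν : 0 ≤ ν) (hT : 0 < T) {f u v : VField} {p q : SField}
    (hu : IsClassicalSolution ν f T u p) (hv : IsClassicalSolution ν f T v q) :
    ∀ t ∈ Icc 0 T, v t = u t ∧ q t = p t := by
  obtain ⟨ut, ux, uxx, px, cu, cut, cux, cuxx, cp, cpx, du, eu, divu, u0, mp⟩ := hu
  obtain ⟨vt, vx, vxx, qx, cv, cvt, cvx, cvxx, cq, cqx, dv, ev, divv, v0, mq⟩ := hv
  -- bound on the gradient of `u`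
  have hC : ∃ C, 0 ≤ C ∧ ∀ i k, ∀ t ∈ Icc 0 T, ∀ x, |ux i t x k| ≤ C := by
    choose C hC0 hC using fun i k => (cux i k).bound
    refine ⟨∑ i, ∑ k, C i k, Finset.sum_nonneg fun i _ => Finset.sum_nonneg fun k _ => hC0 i k, ?_⟩
    intro i k t ht x
    refine (hC i k t ht x).trans ?_
    calc C i k ≤ ∑ k, C i k := Finset.single_le_sum (fun k _ => hC0 i k) (Finset.mem_univ k)
      _ ≤ ∑ i, ∑ k, C i k :=
        Finset.single_le_sum (f := fun i => ∑ k, C i k)
          (fun i _ => Finset.sum_nonneg fun k _ => hC0 i k) (Finset.mem_univ i)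
  obtain ⟨C, hC0, hC⟩ := hC
  have cw : ∀ k, ContS T (fun t x => v t x k - u t x k) := fun k => (cv k).sub (cu k)
  have cE : ContS T (fun t x => ∑ k, (v t x k - u t x k) ^ 2) := by
    refine ContS.sum fun k => ?_
    simp only [pow_two]
    exact (cw k).mul (cw k)
  have cE' : ContS T (fun t x => ∑ k, 2 * (v t x k - u t x k) * (vt t x k - ut t x k)) := by
    refine ContS.sum fun k => ?_
    exact ((ContS.const 2).mul (cw k)).mul ((cvt k).sub (cut k))
  set E : ℝ → ℝ := fun t => ∫ x, ∑ k, (v t x k - u t x k) ^ 2 with hE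
  have hdE : ∀ t ∈ Ioo 0 T, HasDerivAt E
      (∫ x, ∑ k, 2 * (v t x k - u t x k) * (vt t x k - ut t x k)) t := by
    intro t ht
    refine hasDerivAt_integral cE cE' (fun t ht x => ?_) ht
    have hu1 := hasDerivAt_pi.1 ((du t (Ioo_subset_Icc_self ht) x).1.hasDerivAt
      (Icc_mem_nhds ht.1 ht.2))
    have hv1 := hasDerivAt_pi.1 ((dv t (Ioo_subset_Icc_self ht) x).1.hasDerivAt
      (Icc_mem_nhds ht.1 ht.2))
    refine (HasDerivAt.fun_sum (u := Finset.univ) (A' := fun k =>
      2 * (v t x k - u t x k) * (vt t x k - ut t x k))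
      (A := fun k s => (v s x k - u s x k) ^ 2) fun k _ => ?_)
    have := ((hv1 k).fun_sub (hu1 k)).fun_pow 2
    simpa using this
  have hle : ∀ t ∈ Ioo 0 T,
      (∫ x, ∑ k, 2 * (v t x k - u t x k) * (vt t x k - ut t x k)) ≤ 6 * C * E t := by
    intro t ht'
    have ht : t ∈ Icc 0 T := Ioo_subset_Icc_self ht'
    -- the three families of divergences
    have su : ∀ k, Continuous fun x => u t x k := fun k => (cu k).slice ht
    have sv : ∀ k, Continuous fun x => v t x k := fun k => (cv k).slice ht
    have sux : ∀ i k, Continuous fun x => ux i t x k := fun i k => (cux i k).slice ht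
    have svx : ∀ i k, Continuous fun x => vx i t x k := fun i k => (cvx i k).slice ht
    have suxx : ∀ i j k, Continuous fun x => uxx i j t x k := fun i j k => (cuxx i j k).slice ht
    have svxx : ∀ i j k, Continuous fun x => vxx i j t x k := fun i j k => (cvxx i j k).slice ht
    have sp : Continuous fun x => p t x := cp.slice ht
    have sq : Continuous fun x => q t x := cq.slice ht
    have spx : ∀ i, Continuous fun x => px i t x := fun i => (cpx i).slice ht
    have sqx : ∀ i, Continuous fun x => qx i t x := fun i => (cqx i).slice ht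
    have svt : ∀ k, Continuous fun x => vt t x k := fun k => (cvt k).slice ht
    have sut : ∀ k, Continuous fun x => ut t x k := fun k => (cut k).slice ht
    have du1 : ∀ x i k, HasDerivAt (fun s => u t (move i s x) k) (ux i t x k) 0 :=
      fun x i k => hasDerivAt_pi.1 ((du t ht x).2.1 i) k
    have dv1 : ∀ x i k, HasDerivAt (fun s => v t (move i s x) k) (vx i t x k) 0 :=
      fun x i k => hasDerivAt_pi.1 ((dv t ht x).2.1 i) k
    have du2 : ∀ x i j k, HasDerivAt (fun s => ux i t (move j s x) k) (uxx i j t x k) 0 :=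
      fun x i j k => hasDerivAt_pi.1 ((du t ht x).2.2.1 i j) k
    have dv2 : ∀ x i j k, HasDerivAt (fun s => vx i t (move j s x) k) (vxx i j t x k) 0 :=
      fun x i j k => hasDerivAt_pi.1 ((dv t ht x).2.2.1 i j) k
    have dp : ∀ x i, HasDerivAt (fun s => p t (move i s x)) (px i t x) 0 :=
      fun x i => (du t ht x).2.2.2 i
    have dq : ∀ x i, HasDerivAt (fun s => q t (move i s x)) (qx i t x) 0 :=
      fun x i => (dv t ht x).2.2.2 i
    have IA : ∀ i k, ∫ x, (vx i t x i * (v t x k - u t x k) ^ 2
        + v t x i * (2 * (v t x k - u t x k) * (vx i t x k - ux i t x k))) = 0 := by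
      intro i k
      refine integral_deriv_eq_zero (i := i) (g := fun x => v t x i * (v t x k - u t x k) ^ 2)
        (by fun_prop) (by fun_prop) fun x => ?_
      have := (dv1 x i i).fun_mul (((dv1 x i k).fun_sub (du1 x i k)).fun_pow 2)
      simpa [move_zero] using this
    have IB : ∀ k, ∫ x, ((vx k t x k - ux k t x k) * (q t x - p t x)
        + (v t x k - u t x k) * (qx k t x - px k t x)) = 0 := by
      intro k
      refine integral_deriv_eq_zero (i := k) (g := fun x => (v t x k - u t x k) * (q t x - p t x))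
        (by fun_prop) (by fun_prop) fun x => ?_
      have := ((dv1 x k k).fun_sub (du1 x k k)).fun_mul ((dq x k).fun_sub (dp x k))
      simpa [move_zero] using this
    have IC : ∀ i k, ∫ x, ((vx i t x k - ux i t x k) * (vx i t x k - ux i t x k)
        + (v t x k - u t x k) * (vxx i i t x k - uxx i i t x k)) = 0 := by
      intro i k
      refine integral_deriv_eq_zero (i := i)
        (g := fun x => (v t x k - u t x k) * (vx i t x k - ux i t x k))
        (by fun_prop) (by fun_prop) fun x => ?_
      have := ((dv1 x i k).fun_sub (du1 x i k)).fun_mul ((dv2 x i i k).fun_sub (du2 x i i k))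
      simpa [move_zero] using this
    have IA' : ∫ x, ∑ i, ∑ k, (vx i t x i * (v t x k - u t x k) ^ 2
        + v t x i * (2 * (v t x k - u t x k) * (vx i t x k - ux i t x k))) = 0 := by
      rw [integral_finsetSum _ fun i _ => integrable_of_cont (by fun_prop)]
      refine Finset.sum_eq_zero fun i _ => ?_
      rw [integral_finsetSum _ fun i _ => integrable_of_cont (by fun_prop)]
      exact Finset.sum_eq_zero fun k _ => IA i k
    have IB' : ∫ x, ∑ k, ((vx k t x k - ux k t x k) * (q t x - p t x)
        + (v t x k - u t x k) * (qx k t x - px k t x)) = 0 := by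
      rw [integral_finsetSum _ fun i _ => integrable_of_cont (by fun_prop)]
      exact Finset.sum_eq_zero fun k _ => IB k
    have IC' : ∫ x, ∑ i, ∑ k, ((vx i t x k - ux i t x k) * (vx i t x k - ux i t x k)
        + (v t x k - u t x k) * (vxx i i t x k - uxx i i t x k)) = 0 := by
      rw [integral_finsetSum _ fun i _ => integrable_of_cont (by fun_prop)]
      refine Finset.sum_eq_zero fun i _ => ?_
      rw [integral_finsetSum _ fun i _ => integrable_of_cont (by fun_prop)]
      exact Finset.sum_eq_zero fun k _ => IC i k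
    have key : ∫ x, (∑ k, 2 * (v t x k - u t x k) * (vt t x k - ut t x k)
      + ∑ i, ∑ k, (vx i t x i * (v t x k - u t x k) ^ 2
        + v t x i * (2 * (v t x k - u t x k) * (vx i t x k - ux i t x k)))
      + 2 * ∑ k, ((vx k t x k - ux k t x k) * (q t x - p t x)
        + (v t x k - u t x k) * (qx k t x - px k t x))
      - 2 * ν * ∑ i, ∑ k, ((vx i t x k - ux i t x k) * (vx i t x k - ux i t x k)
        + (v t x k - u t x k) * (vxx i i t x k - uxx i i t x k)))
      ≤ ∫ x, 6 * C * ∑ k, (v t x k - u t x k) ^ 2 := by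
      refine integral_mono (integrable_of_cont (by fun_prop)) (integrable_of_cont (by fun_prop)) ?_
      intro x
      exact pointwise_energy ν C hν (v t x) (u t x) (vt t x) (ut t x) (f t x)
        (fun k => qx k t x) (fun k => px k t x) (fun i k => vx i t x k) (fun i k => ux i t x k)
        (fun i k => vxx i i t x k) (fun i k => uxx i i t x k) (q t x - p t x)
        (fun k => ev t ht x k) (fun k => eu t ht x k) (divv t ht x) (divu t ht x)
        (fun i k => hC i k t ht x)
    rw [integral_sub (integrable_of_cont (by fun_prop)) (integrable_of_cont (by fun_prop)),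
      integral_add (integrable_of_cont (by fun_prop)) (integrable_of_cont (by fun_prop)),
      integral_add (integrable_of_cont (by fun_prop)) (integrable_of_cont (by fun_prop)),
      integral_const_mul, integral_const_mul, integral_const_mul, IA', IB', IC'] at key
    simpa using key
  -- Gronwall
  have hcont : ContinuousOn (fun t => Real.exp (-(6 * C) * t) * E t) (Icc 0 T) :=
    (Continuous.continuousOn (by fun_prop)).mul (continuousOn_integral cE)
  have hderiv : ∀ t ∈ Ioo 0 T, HasDerivAt (fun t => Real.exp (-(6 * C) * t) * E t)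
      (Real.exp (-(6 * C) * t) * (-(6 * C)) * E t + Real.exp (-(6 * C) * t) *
        (∫ x, ∑ k, 2 * (v t x k - u t x k) * (vt t x k - ut t x k))) t := by
    intro t ht
    have h1 : HasDerivAt (fun t : ℝ => Real.exp (-(6 * C) * t))
        (Real.exp (-(6 * C) * t) * (-(6 * C))) t := by
      have := ((hasDerivAt_id t).const_mul (-(6 * C))).exp
      simpa using this
    exact h1.mul (hdE t ht)
  have hanti : AntitoneOn (fun t => Real.exp (-(6 * C) * t) * E t) (Icc 0 T) := by
    refine antitoneOn_of_deriv_nonpos (convex_Icc 0 T) hcont ?_ ?_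
    · rw [interior_Icc]
      exact fun t ht => (hderiv t ht).differentiableAt.differentiableWithinAt
    · rw [interior_Icc]
      intro t ht
      rw [(hderiv t ht).deriv]
      have := hle t ht
      have hpos := Real.exp_pos (-(6 * C) * t)
      have : Real.exp (-(6 * C) * t) *
        (∫ x, ∑ k, 2 * (v t x k - u t x k) * (vt t x k - ut t x k))
        ≤ Real.exp (-(6 * C) * t) * (6 * C * E t) := mul_le_mul_of_nonneg_left this hpos.le
      linarith
  have hEnn : ∀ t, 0 ≤ E t := fun t => integral_nonneg fun x =>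
    Finset.sum_nonneg fun k _ => sq_nonneg _
  have hE0 : E 0 = 0 := by
    simp [hE, u0, v0]
  have hEz : ∀ t ∈ Icc 0 T, E t = 0 := by
    intro t ht
    have h1 := hanti (left_mem_Icc.2 hT.le) ht ht.1
    simp only [hE0, mul_zero] at h1
    have hpos := Real.exp_pos (-(6 * C) * t)
    have h2 : E t ≤ 0 := by
      by_contra hcon
      push Not at hcon
      have := mul_pos hpos hcon
      linarith
    exact le_antisymm h2 (hEnn t)
  have hw : ∀ t ∈ Icc 0 T, v t = u t := by
    intro t ht
    have h1 := hEz t ht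
    have h2 : Continuous fun x => ∑ k, (v t x k - u t x k) ^ 2 := cE.slice ht
    have h4 : ∀ x, ∑ k, (v t x k - u t x k) ^ 2 = 0 := by
      intro x
      by_contra hx
      have h5 := h2.integral_pos_of_hasCompactSupport_nonneg_nonzero
        (μ := (volume : Measure T3)) (x := x) (HasCompactSupport.of_compactSpace _)
        (fun y => Finset.sum_nonneg fun k _ => sq_nonneg _) hx
      exact absurd h1 (ne_of_gt h5)
    funext x k
    have h5 := (Finset.sum_eq_zero_iff_of_nonneg (fun k _ => sq_nonneg _)).1 (h4 x) k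
      (Finset.mem_univ k)
    have h6 : v t x k - u t x k = 0 := by
      exact pow_eq_zero_iff (two_ne_zero) |>.1 h5
    linarith
  intro t ht
  refine ⟨hw t ht, ?_⟩
  -- equality of derivatives
  have hvt : ∀ x, vt t x = ut t x := by
    intro x
    have h1 := (du t ht x).1
    have h2 := (dv t ht x).1
    have h3 : HasDerivWithinAt (fun s => u s x) (vt t x) (Icc 0 T) t :=
      h2.congr (fun s hs => by rw [hw s hs]) (by rw [hw t ht])
    exact (uniqueDiffOn_Icc hT t ht).eq_deriv _ h3 h1
  have hvx : ∀ i x, vx i t x = ux i t x := by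
    intro i x
    have h1 := (du t ht x).2.1 i
    have h2 := (dv t ht x).2.1 i
    rw [hw t ht] at h2
    exact h2.unique h1
  have hvxx : ∀ i j x, vxx i j t x = uxx i j t x := by
    intro i j x
    have h1 := (du t ht x).2.2.1 i j
    have h2 := (dv t ht x).2.2.1 i j
    simp only [hvx] at h2
    exact h2.unique h1
  have hpx : ∀ i x, qx i t x = px i t x := by
    intro i x
    have h1 := eu t ht x i
    have h2 := ev t ht x i
    simp only [hvt, hvx, hvxx, hw t ht] at h2
    linarith
  have hconst : ∀ i s x, q t (move i s x) - p t (move i s x) = q t x - p t x := by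
    intro i s x
    have h1 : ∀ s, HasDerivAt (fun s => q t (move i s x) - p t (move i s x)) 0 s := by
      intro s
      have h2 := (hasDerivAt_move (g := q t) (g' := qx i t) (fun x => (dv t ht x).2.2.2 i) x s).fun_sub
        (hasDerivAt_move (g := p t) (g' := px i t) (fun x => (du t ht x).2.2.2 i) x s)
      simpa [hpx] using h2
    have h3 := is_const_of_deriv_eq_zero (fun s => (h1 s).differentiableAt)
      (fun s => (h1 s).deriv) s 0
    simpa [move_zero] using h3
  have hall : ∀ x, q t x - p t x = q t 0 - p t 0 := by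
    intro x
    choose y hy using fun i => QuotientAddGroup.mk_surjective (x i)
    have h1 : x = move 0 (y 0) (move 1 (y 1) (move 2 (y 2) 0)) := by
      funext i
      simp only [move, proj, Pi.add_apply, zero_add]
      fin_cases i <;> simp [← hy]
    rw [h1, hconst, hconst, hconst]
  have hint : ∫ x, (q t x - p t x) = 0 := by
    rw [integral_sub (integrable_of_cont (cq.slice ht)) (integrable_of_cont (cp.slice ht)),
      mq t ht, mp t ht, sub_zero]
  have hz : q t 0 - p t 0 = 0 := by
    simp only [hall] at hint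
    have hv1 : (volume : Measure T3).real univ = 1 := by
      simp [Measure.real, volume_pi, Measure.pi_univ]
    simpa [hv1] using hint
  funext x
  have := hall x
  linarith

end Vale.Agent.P113
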