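import Vale.Agent.P113.CompFam

open Polynomial

namespace Vale.Agent.P113

variable {α : Type} [Primcodable α]

def qpow (a : Frac) (n : ℕ) : Frac := Nat.rec (qnat 1) (fun _ acc => qmul acc a) n

theorem rv_qpow (a : Frac) (n : ℕ) : rv (qpow a n) = rv a ^ n := by
  induction n with
  | zero => simp [qpow, rv_qnat]
  | succ k ih => rw [pow_succ, ← ih]; simp only [qpow]; rw [rv_qmul]

theorem primrec_qpow : Primrec₂ qpow := by
  have : Primrec fun p : Frac × ℕ => qpow p.1 p.2 := by
    refine Primrec.nat_rec' (f := fun p : Frac × ℕ => p.2) (g := fun _ => qnat 1)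
      (h := fun (p : Frac × ℕ) (q : ℕ × Frac) => qmul q.2 p.1) Primrec.snd (Primrec.const _) ?_
    exact primrec_qmul.comp (Primrec.snd.comp Primrec.snd) (Primrec.fst.comp Primrec.fst)
  exact this

theorem abs_pow_sub_pow_le_aux {a b : ℝ} (ha0 : 0 ≤ a) (ha1 : a ≤ 1) (hb0 : 0 ≤ b) (hb1 : b ≤ 1)
    (n : ℕ) : |a ^ n - b ^ n| ≤ n * |a - b| := by
  induction n with
  | zero => simp
  | succ k ih =>
    have h : a ^ (k + 1) - b ^ (k + 1) = a ^ k * (a - b) + (a ^ k - b ^ k) * b := by ring
    rw [h]
    refine (abs_add_le _ _).trans ?_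
    rw [abs_mul, abs_mul, abs_of_nonneg (pow_nonneg ha0 k), abs_of_nonneg hb0]
    have h1 : a ^ k ≤ 1 := pow_le_one₀ ha0 ha1
    have h2 := abs_nonneg (a - b)
    have h3 := abs_nonneg (a ^ k - b ^ k)
    push_cast
    nlinarith

theorem exp_neg_approx {x : ℝ} (hx : 0 ≤ x) (n : ℕ) :
    |((1 + x / ((n : ℝ) + 1))⁻¹) ^ (n + 1) - Real.exp (-x)| ≤ x ^ 2 / ((n : ℝ) + 1) := by
  set N : ℝ := (n : ℝ) + 1 with hN
  have hNpos : 0 < N := by positivity
  set y := x / N with hy
  have hy0 : 0 ≤ y := by positivity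
  have hexp : Real.exp (-x) = Real.exp (-y) ^ (n + 1) := by
    rw [← Real.exp_nat_mul]
    congr 1
    rw [hy]
    push_cast
    rw [← hN]
    field_simp
  rw [hexp]
  have h1 : 0 ≤ (1 + y)⁻¹ := by positivity
  have h2 : (1 + y)⁻¹ ≤ 1 := inv_le_one_of_one_le₀ (by linarith)
  have h3 : 0 ≤ Real.exp (-y) := (Real.exp_pos _).le
  have h4 : Real.exp (-y) ≤ 1 := by rw [Real.exp_le_one_iff]; linarith
  refine (abs_pow_sub_pow_le_aux h1 h2 h3 h4 (n + 1)).trans ?_
  have h5 : |(1 + y)⁻¹ - Real.exp (-y)| ≤ y ^ 2 := by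
    have h6 : Real.exp (-y) ≤ (1 + y)⁻¹ := by
      rw [Real.exp_neg]
      apply inv_anti₀ (by positivity)
      linarith [Real.add_one_le_exp y]
    have h7 : 1 - y ≤ Real.exp (-y) := by linarith [Real.add_one_le_exp (-y)]
    have h8 : (1 + y)⁻¹ ≤ 1 - y + y ^ 2 := by
      rw [inv_le_iff_one_le_mul₀ (by positivity)]
      nlinarith [pow_nonneg hy0 3]
    rw [abs_of_nonneg (by linarith)]
    linarith
  calc ((n + 1 : ℕ) : ℝ) * |(1 + y)⁻¹ - Real.exp (-y)| ≤ ((n + 1 : ℕ) : ℝ) * y ^ 2 :=
        mul_le_mul_of_nonneg_left h5 (by positivity)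
    _ = x ^ 2 / N := by
        rw [hy]
        push_cast
        rw [← hN]
        field_simp

theorem CompFam.exp_neg {g : α → Frac} (hg : Computable g) (hpos : ∀ a, 0 ≤ rv (g a)) :
    CompFam fun a => Real.exp (-(rv (g a))) := by
  have h1 : Computable fun p : α × ℕ => qinv (qadd (qnat 1) (qmul (g p.1) (qinv (qnat (p.2 + 1))))) :=
    primrec_qinv.to_comp.comp (primrec_qadd.to_comp.comp (Computable.const _)
      (primrec_qmul.to_comp.comp (hg.comp Computable.fst)
        (primrec_qinv.to_comp.comp (primrec_qnat.to_comp.comp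
          (Computable.succ.comp Computable.snd)))))
  refine CompFam.of_lim' (g := fun p => qpow (qinv (qadd (qnat 1) (qmul (g p.1)
    (qinv (qnat (p.2 + 1)))))) (p.2 + 1)) (K := fun a => qceil (g a) * qceil (g a))
    (primrec_qpow.to_comp.comp h1 (Computable.succ.comp Computable.snd))
    (Primrec.nat_mul.to_comp.comp (primrec_qceil.to_comp.comp hg) (primrec_qceil.to_comp.comp hg))
    fun a n => ?_
  dsimp only
  rw [rv_qpow, rv_qinv, rv_qadd, rv_qmul, rv_qinv, rv_qnat, rv_qnat]
  have h2 := exp_neg_approx (hpos a) n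
  have h3 : (1 : ℝ) + rv (g a) / ((n : ℝ) + 1) = ((1 : ℕ) : ℝ) + rv (g a) * (((n + 1 : ℕ) : ℝ))⁻¹ := by
    push_cast; rw [div_eq_mul_inv]
  rw [h3] at h2
  refine h2.trans ?_
  have h4 := abs_rv_le (g a)
  rw [abs_of_nonneg (hpos a)] at h4
  apply div_le_div_of_nonneg_right _ (by positivity)
  push_cast
  rw [pow_two]
  exact mul_le_mul h4 h4 (hpos a) (by positivity)

/-- The polynomials in the derivatives of `expNegInvGlue`. -/
noncomputable def dpoly : ℕ → ℝ[X]
  | 0 => 1
  | k + 1 => X ^ 2 * (dpoly k - derivative (R := ℝ) (dpoly k))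

theorem hasDerivAt_dpoly (k : ℕ) (x : ℝ) :
    HasDerivAt (fun x => (dpoly k).eval x⁻¹ * expNegInvGlue x)
      ((dpoly (k + 1)).eval x⁻¹ * expNegInvGlue x) x :=
  expNegInvGlue.hasDerivAt_polynomial_eval_inv_mul (dpoly k) x

/-- Coefficient lists. -/
def coefStep (L : List Frac) : List Frac :=
  (List.range (L.length + 2)).map fun j =>
    if j < 2 then qnat 0
    else qsub (L.getD (j - 2) (qnat 0)) (qmul (qnat (j - 1)) (L.getD (j - 1) (qnat 0)))

def coefs (k : ℕ) : List Frac := Nat.rec [qnat 1] (fun _ L => coefStep L) k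

theorem primrec_coefStep : Primrec coefStep := by
  refine Primrec.list_map (Primrec.list_range.comp
    (Primrec.succ.comp (Primrec.succ.comp Primrec.list_length))) ?_
  have hL : Primrec fun p : List Frac × ℕ => p.1 := Primrec.fst
  have hj : Primrec fun p : List Frac × ℕ => p.2 := Primrec.snd
  have hj1 : Primrec fun p : List Frac × ℕ => p.2 - 1 := Primrec.pred.comp hj
  have hj2 : Primrec fun p : List Frac × ℕ => p.2 - 2 :=
    Primrec.nat_sub.comp hj (Primrec.const 2)
  exact Primrec.ite (Primrec.nat_lt.comp hj (Primrec.const 2)) (Primrec.const _)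
    (primrec_qsub.comp ((Primrec.list_getD _).comp hL hj2)
      (primrec_qmul.comp (primrec_qnat.comp hj1) ((Primrec.list_getD _).comp hL hj1)))

theorem primrec_coefs : Primrec coefs := by
  have : Primrec fun k : ℕ => coefs k := by
    refine Primrec.nat_rec' (f := fun k : ℕ => k) (g := fun _ => [qnat 1])
      (h := fun (_ : ℕ) (q : ℕ × List Frac) => coefStep q.2) Primrec.id (Primrec.const _) ?_
    exact primrec_coefStep.comp (Primrec.snd.comp Primrec.snd)
  exact this

theorem rv_coefStep_getD (L : List Frac) (j : ℕ) :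
    rv ((coefStep L).getD j (qnat 0)) =
      if j < 2 then 0 else rv (L.getD (j - 2) (qnat 0)) - ((j : ℝ) - 1) * rv (L.getD (j - 1) (qnat 0)) := by
  by_cases hj : j < L.length + 2
  · have h1 : (coefStep L).getD j (qnat 0) = if j < 2 then qnat 0
        else qsub (L.getD (j - 2) (qnat 0)) (qmul (qnat (j - 1)) (L.getD (j - 1) (qnat 0))) := by
      rw [List.getD_eq_getElem?_getD, coefStep, List.getElem?_map, List.getElem?_range hj]
      rfl
    rw [h1]
    by_cases h2 : j < 2
    · simp [h2, rv_qnat]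
    · have h3 : ((j - 1 : ℕ) : ℝ) = (j : ℝ) - 1 := by
        rw [Nat.cast_sub (by omega)]; simp
      simp only [h2, if_false]
      rw [rv_qsub, rv_qmul, rv_qnat, h3]
  · have h1 : (coefStep L).getD j (qnat 0) = qnat 0 := by
      apply List.getD_eq_default
      simp [coefStep]; omega
    have h2 : L.getD (j - 2) (qnat 0) = qnat 0 := List.getD_eq_default _ _ (by omega)
    have h3 : L.getD (j - 1) (qnat 0) = qnat 0 := List.getD_eq_default _ _ (by omega)
    rw [h1, h2, h3]
    simp [rv_qnat]

theorem coeff_dpoly (k j : ℕ) : (dpoly k).coeff j = rv ((coefs k).getD j (qnat 0)) := by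
  induction k generalizing j with
  | zero =>
    simp only [dpoly, coefs]
    rcases j with _ | j
    · simp [rv_qnat]
    · simp [rv_qnat, coeff_one]
  | succ k ih =>
    have h1 : coefs (k + 1) = coefStep (coefs k) := rfl
    rw [h1, rv_coefStep_getD]
    simp only [dpoly]
    rw [coeff_X_pow_mul']
    by_cases h2 : j < 2
    · simp [h2, not_le.2 h2]
    · have h3 : 2 ≤ j := by omega
      simp only [h3, h2, if_true, if_false]
      rw [coeff_sub, coeff_derivative, ih, ih]
      have h4 : j - 2 + 1 = j - 1 := by omega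
      have h5 : ((j - 2 : ℕ) : ℝ) + 1 = (j : ℝ) - 1 := by
        rw [Nat.cast_sub h3]; push_cast; ring
      rw [h4, h5]
      ring

/-- Evaluation of a coefficient list. -/
def evalList (L : List Frac) (x : Frac) : Frac :=
  L.foldr (fun c acc => qadd c (qmul x acc)) (qnat 0)

theorem primrec_evalList : Primrec₂ evalList := by
  have : Primrec fun p : List Frac × Frac => evalList p.1 p.2 := by
    refine Primrec.list_foldr (f := fun p : List Frac × Frac => p.1) (g := fun _ => qnat 0)
      (h := fun (p : List Frac × Frac) (q : Frac × Frac) => qadd q.1 (qmul p.2 q.2))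
      Primrec.fst (Primrec.const _) ?_
    exact primrec_qadd.comp (Primrec.fst.comp Primrec.snd)
      (primrec_qmul.comp (Primrec.snd.comp Primrec.fst) (Primrec.snd.comp Primrec.snd))
  exact this

theorem eval_eq_evalList (L : List Frac) (x : Frac) (p : ℝ[X])
    (h : ∀ j, p.coeff j = rv (L.getD j (qnat 0))) : p.eval (rv x) = rv (evalList L x) := by
  induction L generalizing p with
  | nil =>
    have : p = 0 := by
      ext j
      rw [h j]; simp [rv_qnat]
    simp [this, evalList, rv_qnat]
  | cons c L ih =>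
    have h1 : p = C (rv c) + X * p.divX := by
      have h0 := divX_mul_X_add p
      have h2 : p.coeff 0 = rv c := by rw [h 0]; rfl
      rw [h2] at h0
      rw [← h0]
      simp only [divX_add, divX_C]
      have h3 : (p.divX * X).divX = p.divX := by
        ext n; simp [coeff_divX]
      rw [h3, add_zero]
      ring
    have h2 := ih p.divX (fun j => by rw [coeff_divX, h (j + 1)]; rfl)
    rw [h1]
    simp only [eval_add, eval_C, eval_mul, eval_X]
    rw [h2]
    simp only [evalList, List.foldr_cons]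
    rw [rv_qadd, rv_qmul]

/-- The derivatives of `expNegInvGlue`. -/
noncomputable def psiD (k : ℕ) (x : ℝ) : ℝ := (dpoly k).eval x⁻¹ * expNegInvGlue x

theorem hasDerivAt_psiD (k : ℕ) (x : ℝ) : HasDerivAt (psiD k) (psiD (k + 1) x) x :=
  hasDerivAt_dpoly k x

theorem psiD_zero : psiD 0 = expNegInvGlue := by
  funext x; simp [psiD, dpoly]

theorem contDiff_psiD (k : ℕ) {n : ℕ∞} : ContDiff ℝ n (psiD k) :=
  expNegInvGlue.contDiff_polynomial_eval_inv_mul (dpoly k)

/-- The derivatives of `expNegInvGlue` at rational points form a computable family. -/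
theorem compFam_psiD : CompFam fun p : ℕ × Frac => psiD p.1 (rv p.2) := by
  have hx : Computable fun p : ℕ × Frac => p.2 := Computable.snd
  have hpos : Computable fun p : ℕ × Frac => qlt (qnat 0) p.2 :=
    primrec_qlt.to_comp.comp (Computable.const _) hx
  have h1 : CompFam fun p : ℕ × Frac => rv (evalList (coefs p.1) (qinv p.2)) :=
    CompFam.rat (primrec_evalList.to_comp.comp (primrec_coefs.to_comp.comp Computable.fst)
      (primrec_qinv.to_comp.comp hx))
  -- use the absolute value trick: the argument of the exponential is made nonnegative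
  let g : ℕ × Frac → Frac := fun p => cond (qlt (qnat 0) p.2) (qinv p.2) (qnat 0)
  have hg : Computable g :=
    Computable.cond hpos (primrec_qinv.to_comp.comp hx) (Computable.const _)
  have hg0 : ∀ p, 0 ≤ rv (g p) := by
    intro p
    by_cases h : qlt (qnat 0) p.2 = true
    · have h2 := (qlt_iff _ _).1 h
      simp only [g, h, cond_true, rv_qinv]
      rw [rv_qnat] at h2
      have : 0 < rv p.2 := by simpa using h2
      positivity
    · have h2 : qlt (qnat 0) p.2 = false := by simpa using h
      simp [g, h2, rv_qnat]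
  have h2 := CompFam.exp_neg hg hg0
  refine ((h1.mul h2).ite hpos CompFam.zero).of_eq fun p => ?_
  by_cases h : qlt (qnat 0) p.2 = true
  · have h3 := (qlt_iff _ _).1 h
    have h4 : 0 < rv p.2 := by simpa [rv_qnat] using h3
    simp only [h, if_true, g, cond_true]
    rw [← eval_eq_evalList _ _ (dpoly p.1) (coeff_dpoly p.1), rv_qinv]
    simp [psiD, expNegInvGlue, not_le.2 h4]
  · have h3 : ¬ (0 < rv p.2) := by
      intro h4
      exact h ((qlt_iff _ _).2 (by simpa [rv_qnat] using h4))
    simp only [h]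
    simp [psiD, expNegInvGlue.zero_of_nonpos (not_lt.1 h3)]

end Vale.Agent.P113
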