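import Vale.Agent.P113.Sim
import Vale.Agent.P113.Psi

open MeasureTheory Set Filter Topology

namespace Vale.Agent.P113

variable {α : Type} [Primcodable α]

/-- Limits of computable families. -/
theorem CompFam.lim {r : α → ℝ} {s : α × ℕ → ℝ} (hs : CompFam s)
    (h : ∀ a n, |s (a, n) - r a| ≤ 1 / ((n : ℝ) + 1)) : CompFam r := by
  obtain ⟨F, hF, hF'⟩ := hs
  have hi : Computable fun p : α × ℕ => 2 * p.2 + 1 :=
    (Primrec.nat_double_succ.comp Primrec.snd).to_comp
  refine ⟨fun p => F ((p.1, 2 * p.2 + 1), 2 * p.2 + 1),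
    hF.comp ((Computable.fst.pair hi).pair hi), fun a n => ?_⟩
  have h1 := h a (2 * n + 1)
  have h2 := hF' (a, 2 * n + 1) (2 * n + 1)
  have h3 : (1 : ℝ) / (((2 * n + 1 : ℕ) : ℝ) + 1) + 1 / (((2 * n + 1 : ℕ) : ℝ) + 1)
      = 1 / ((n : ℝ) + 1) := by
    push_cast
    have : (n : ℝ) + 1 ≠ 0 := by positivity
    have : 2 * (n : ℝ) + 1 + 1 ≠ 0 := by positivity
    field_simp
    ring
  calc |rv (F ((a, 2 * n + 1), 2 * n + 1)) - r a|
      = |(rv (F ((a, 2 * n + 1), 2 * n + 1)) - s (a, 2 * n + 1)) + (s (a, 2 * n + 1) - r a)| := by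
        ring_nf
    _ ≤ _ := abs_add_le _ _
    _ ≤ _ := by rw [← h3]; exact add_le_add h2 h1

/-- The speed: the sum of `2^{-(n+1)}` over the times `n` at which the machine is in a halting
state. -/
noncomputable def speed (p : Desc × List ℕ) : ℝ :=
  ∑' n : ℕ, if haltsAt p.1 p.2 n = true then (1 / 2 : ℝ) ^ (n + 1) else 0

theorem speed_term_nonneg (p : Desc × List ℕ) (n : ℕ) :
    0 ≤ (if haltsAt p.1 p.2 n = true then (1 / 2 : ℝ) ^ (n + 1) else 0) := by
  split_ifs <;> positivity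

theorem speed_term_le (p : Desc × List ℕ) (n : ℕ) :
    (if haltsAt p.1 p.2 n = true then (1 / 2 : ℝ) ^ (n + 1) else 0) ≤ (1 / 2 : ℝ) ^ (n + 1) := by
  split_ifs
  · exact le_rfl
  · positivity

theorem summable_geom : Summable fun n : ℕ => (1 / 2 : ℝ) ^ (n + 1) :=
  (summable_nat_add_iff 1).2 (summable_geometric_of_lt_one (by norm_num) (by norm_num))

theorem speed_summable (p : Desc × List ℕ) :
    Summable fun n : ℕ => (if haltsAt p.1 p.2 n = true then (1 / 2 : ℝ) ^ (n + 1) else 0) :=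
  Summable.of_nonneg_of_le (speed_term_nonneg p) (speed_term_le p) summable_geom

theorem speed_nonneg (p : Desc × List ℕ) : 0 ≤ speed p := tsum_nonneg (speed_term_nonneg p)

theorem speed_pos_iff (p : Desc × List ℕ) :
    0 < speed p ↔ ∃ n, haltsAt p.1 p.2 n = true := by
  constructor
  · intro h
    by_contra hcon
    push Not at hcon
    have : speed p = 0 := by
      unfold speed
      simp [hcon]
    linarith
  · rintro ⟨n, hn⟩
    refine (speed_summable p).tsum_pos (speed_term_nonneg p) n ?_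
    rw [if_pos hn]
    positivity

theorem speed_approx (p : Desc × List ℕ) (N : ℕ) :
    |(∑ i ∈ Finset.range N, if haltsAt p.1 p.2 i = true then (1 / 2 : ℝ) ^ (i + 1) else 0)
      - speed p| ≤ 1 / ((N : ℝ) + 1) := by
  have h1 := (speed_summable p).sum_add_tsum_nat_add N
  have h2 : (∑ i ∈ Finset.range N, if haltsAt p.1 p.2 i = true then (1 / 2 : ℝ) ^ (i + 1) else 0)
      - speed p = -∑' i, (if haltsAt p.1 p.2 (i + N) = true then (1 / 2 : ℝ) ^ (i + N + 1) else 0)
      := by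
    unfold speed
    rw [← h1]
    ring
  rw [h2, abs_neg, abs_of_nonneg (tsum_nonneg fun i => speed_term_nonneg p (i + N))]
  have hs1 := (summable_nat_add_iff (f := fun n : ℕ =>
    (if haltsAt p.1 p.2 n = true then (1 / 2 : ℝ) ^ (n + 1) else 0)) N).2 (speed_summable p)
  have hs2 := (summable_nat_add_iff (f := fun n : ℕ => (1 / 2 : ℝ) ^ (n + 1)) N).2 summable_geom
  have h3 : ∑' i, (if haltsAt p.1 p.2 (i + N) = true then (1 / 2 : ℝ) ^ (i + N + 1) else 0)
      ≤ ∑' i, (1 / 2 : ℝ) ^ (i + N + 1) :=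
    Summable.tsum_le_tsum (fun i => speed_term_le p (i + N)) hs1 hs2
  have h4 : ∑' i : ℕ, (1 / 2 : ℝ) ^ (i + N + 1) = (1 / 2 : ℝ) ^ N := by
    have h5 : ∀ i : ℕ, (1 / 2 : ℝ) ^ (i + N + 1) = (1 / 2 : ℝ) ^ (N + 1) * (1 / 2 : ℝ) ^ i := by
      intro i; rw [← pow_add]; congr 1; omega
    simp_rw [h5]
    rw [tsum_mul_left, tsum_geometric_of_lt_one (by norm_num) (by norm_num), pow_succ]
    norm_num
    ring
  rw [h4] at h3
  refine h3.trans ?_
  rw [one_div, inv_pow, one_div]
  apply inv_anti₀ (by positivity)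
  have h6 : N + 1 ≤ 2 ^ N := Nat.lt_two_pow_self
  exact_mod_cast h6

theorem compFam_speed : CompFam speed := by
  have hq : CompFam fun q : (Desc × List ℕ) × ℕ => rv (qpow (1, 0, 1) (q.2 + 1)) :=
    CompFam.rat (primrec_qpow.to_comp.comp (Computable.const _)
        (Computable.succ.comp Computable.snd))
  have h1 := CompFam.ite (p := fun q : (Desc × List ℕ) × ℕ => haltsAt q.1.1 q.1.2 q.2)
    primrec_haltsAt.to_comp hq CompFam.zero
  have h2 := h1.comp (g := fun q : ((Desc × List ℕ) × ℕ) × ℕ => (q.1.1, q.2))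
      ((Computable.fst.comp Computable.fst).pair Computable.snd)
  have h3 := h2.sum_range (N := fun q : (Desc × List ℕ) × ℕ => q.2) Computable.snd
  refine CompFam.lim h3 fun p n => ?_
  have h4 : ∀ i, rv (qpow (1, 0, 1) (i + 1)) = (1 / 2 : ℝ) ^ (i + 1) := by
    intro i
    rw [rv_qpow]
    congr 1
    rw [rv_def]
    norm_num
  simp only [h4]
  exact speed_approx p n

end Vale.Agent.P113
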