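import Vale.Agent.P113.Unique
import Vale.Agent.P113.Speed
import Vale.Agent.P113.Compiler

open MeasureTheory Set Filter Topology

namespace Vale.Agent.P113

/-- time profile of the force -/
noncomputable def prof (t : ℝ) : ℝ := expNegInvGlue (1 - t)

theorem continuous_prof : Continuous prof :=
  (expNegInvGlue.contDiff (n := 0)).continuous.comp (by fun_prop)

theorem contDiff_prof : ContDiff ℝ ((⊤ : ℕ∞) : WithTop ℕ∞) prof := by
  unfold prof
  exact (expNegInvGlue.contDiff (n := ⊤)).comp (by fun_prop)

noncomputable def profA (t : ℝ) : ℝ := ∫ s in (0 : ℝ)..t, prof s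

noncomputable def profB (t : ℝ) : ℝ := ∫ s in (0 : ℝ)..t, profA s

theorem hasDerivAt_profA (t : ℝ) : HasDerivAt profA (prof t) t :=
  continuous_prof.integral_hasStrictDerivAt 0 t |>.hasDerivAt

theorem continuous_profA : Continuous profA :=
  continuous_iff_continuousAt.2 fun t => (hasDerivAt_profA t).continuousAt

theorem contDiff_profA : ContDiff ℝ ((⊤ : ℕ∞) : WithTop ℕ∞) profA := by
  rw [contDiff_infty_iff_deriv]
  refine ⟨fun t => (hasDerivAt_profA t).differentiableAt, ?_⟩
  have : deriv profA = prof := funext fun t => (hasDerivAt_profA t).deriv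
  rw [this]
  exact contDiff_prof

theorem hasDerivAt_profB (t : ℝ) : HasDerivAt profB (profA t) t :=
  continuous_profA.integral_hasStrictDerivAt 0 t |>.hasDerivAt

theorem continuous_profB : Continuous profB :=
  continuous_iff_continuousAt.2 fun t => (hasDerivAt_profB t).continuousAt

theorem profA_zero : profA 0 = 0 := by simp [profA]

theorem profB_zero : profB 0 = 0 := by simp [profB]

theorem prof_nonneg (t : ℝ) : 0 ≤ prof t := expNegInvGlue.nonneg _

theorem monotone_profA : Monotone profA :=
  monotone_of_hasDerivAt_nonneg hasDerivAt_profA prof_nonneg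

theorem profA_one_pos : 0 < profA 1 := by
  unfold profA
  refine intervalIntegral.intervalIntegral_pos_of_pos_on
    (continuous_prof.intervalIntegrable _ _) (fun x hx => ?_) one_pos
  exact expNegInvGlue.pos_of_pos (by linarith [hx.2])

theorem profB_ge (t : ℝ) (ht : 1 ≤ t) : profA 1 * (t - 1) ≤ profB t := by
  have h1 : MonotoneOn (fun t => profB t - profA 1 * (t - 1)) (Ici 1) := by
    refine monotoneOn_of_deriv_nonneg (convex_Ici 1)
      ((continuous_profB.sub (by fun_prop)).continuousOn) ?_ ?_
    · intro s _
      exact ((hasDerivAt_profB s).differentiableAt.sub (by fun_prop)).differentiableWithinAt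
    · intro s hs
      rw [interior_Ici] at hs
      have h2 : HasDerivAt (fun t => profB t - profA 1 * (t - 1)) (profA s - profA 1) s := by
        have h3 : HasDerivAt (fun t : ℝ => profA 1 * (t - 1)) (profA 1) s := by
          have := ((hasDerivAt_id s).sub_const 1).const_mul (profA 1)
          simpa using this
        exact (hasDerivAt_profB s).sub h3
      rw [h2.deriv]
      have := monotone_profA (le_of_lt hs)
      linarith
  have h2 := h1 (mem_Ici.2 le_rfl) (mem_Ici.2 ht) ht
  simp only [sub_self, mul_zero, sub_zero] at h2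
  have h3 : 0 ≤ profB 1 := by
    have h4 : MonotoneOn profB (Ici 0) := by
      refine monotoneOn_of_deriv_nonneg (convex_Ici 0) continuous_profB.continuousOn
        (fun s _ => (hasDerivAt_profB s).differentiableAt.differentiableWithinAt) ?_
      intro s hs
      rw [interior_Ici] at hs
      rw [(hasDerivAt_profB s).deriv]
      have := monotone_profA (le_of_lt hs)
      rwa [profA_zero] at this
    have := h4 (mem_Ici.2 le_rfl) (mem_Ici.2 zero_le_one) zero_le_one
    rwa [profB_zero] at this
  linarith

/-- The force. -/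
noncomputable def force1 (a : Desc × List ℕ) : VField := fun t _ k =>
  if k = 0 then speed a * prof t else 0

/-- The velocity. -/
noncomputable def vel1 (a : Desc × List ℕ) : VField := fun t _ k =>
  if k = 0 then speed a * profA t else 0

noncomputable def timeF (a : Desc × List ℕ) (k : Fin 3) : ℕ → ℝ → ℝ := fun n t =>
  if k = 0 then speed a * ((-1) ^ n * psiD n (1 - t)) else 0

theorem timeFam_timeF (a : Desc × List ℕ) (k : Fin 3) : TimeFam (timeF a k) := by
  intro n t
  unfold timeF
  split_ifs
  · have h1 : HasDerivAt (fun s : ℝ => 1 - s) (-1) t := by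
      simpa using (hasDerivAt_id t).const_sub 1
    have h2 : HasDerivAt (fun s : ℝ => psiD n (1 - s)) (psiD (n + 1) (1 - t) * (-1)) t :=
      (hasDerivAt_psiD n (1 - t)).comp t h1
    have h3 := (h2.const_mul ((-1 : ℝ) ^ n)).const_mul (speed a)
    have h4 : (-1 : ℝ) ^ (n + 1) * psiD (n + 1) (1 - t)
      = (-1 : ℝ) ^ n * (psiD (n + 1) (1 - t) * -1) := by ring
    rw [h4]
    exact h3
  · exact hasDerivAt_const _ _

theorem force1_eq (a : Desc × List ℕ) (k : Fin 3) : (fun t x => force1 a t x k) =
    fun t x => ∑ _j : Fin 1, tensor (timeF a k) oneFam oneFam oneFam (0, 0, 0, 0) t x := by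
  funext t x
  simp [tensor, timeF, oneFam, force1, psiD_zero, prof]

theorem compFam_force1 : CompFam fun p : (Desc × List ℕ) × Query =>
    ∑ _j : Fin 1, tensor (timeF p.1 p.2.1) oneFam oneFam oneFam (orders p.2.2.1) (rv p.2.2.2.1)
      (proj ![rv p.2.2.2.2.1, rv p.2.2.2.2.2.1, rv p.2.2.2.2.2.2]) := by
  have hl : Computable fun p : (Desc × List ℕ) × Query => p.2.2.1 :=
    Computable.fst.comp (Computable.snd.comp Computable.snd)
  have hk : Computable fun p : (Desc × List ℕ) × Query => p.2.1 :=
    Computable.fst.comp Computable.snd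
  have ht : Computable fun p : (Desc × List ℕ) × Query => p.2.2.2.1 :=
    Computable.fst.comp (Computable.snd.comp (Computable.snd.comp Computable.snd))
  have c0 : Computable fun p : (Desc × List ℕ) × Query => p.2.2.1.count none :=
    (primrec_count none).to_comp.comp hl
  have c1 : Computable fun p : (Desc × List ℕ) × Query => p.2.2.1.count (some 0) :=
    (primrec_count (some 0)).to_comp.comp hl
  have c2 : Computable fun p : (Desc × List ℕ) × Query => p.2.2.1.count (some 1) :=
    (primrec_count (some 1)).to_comp.comp hl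
  have c3 : Computable fun p : (Desc × List ℕ) × Query => p.2.2.1.count (some 2) :=
    (primrec_count (some 2)).to_comp.comp hl
  have hs : CompFam fun p : (Desc × List ℕ) × Query => speed p.1 :=
    compFam_speed.comp Computable.fst
  have hpow : CompFam fun p : (Desc × List ℕ) × Query =>
      rv (qpow (0, 1, 0) (p.2.2.1.count none)) :=
    CompFam.rat (primrec_qpow.to_comp.comp (Computable.const _) c0)
  have hpsi : CompFam fun p : (Desc × List ℕ) × Query =>
      psiD (p.2.2.1.count none) (rv (qsub (qnat 1) p.2.2.2.1)) :=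
    compFam_psiD.comp (g := fun p : (Desc × List ℕ) × Query =>
      (p.2.2.1.count none, qsub (qnat 1) p.2.2.2.1))
      (c0.pair (primrec_qsub.to_comp.comp (Computable.const _) ht))
  have hk0 : Computable fun p : (Desc × List ℕ) × Query => decide (p.2.1 = 0) :=
    (Primrec.eq.comp Primrec.id (Primrec.const 0)).decide.to_comp.comp hk
  have hA := CompFam.ite hk0 (hs.mul (hpow.mul hpsi)) CompFam.zero
  have hall := ((hA.mul (compFam_oneFam c1 fun _ => 0)).mul
    (compFam_oneFam c2 fun _ => 0)).mul
    (compFam_oneFam c3 fun _ => 0)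
  refine hall.of_eq fun p => ?_
  have h1 : rv (0, 1, 0) = -1 := by rw [rv_def]; norm_num
  by_cases hk : p.2.1 = 0 <;>
  simp only [Finset.univ_unique, Fin.default_eq_zero, Finset.sum_const, Finset.card_singleton,
    one_smul, tensor, orders, timeF, rv_qpow, h1, rv_qsub, rv_qnat, Nat.cast_one,
    decide_eq_true_eq, oneFam, hk, if_true, if_false] <;> rfl

theorem exists_compiler1 : ∃ comp : Desc × List ℕ → Nat.Partrec.Code, Computable comp ∧
    ∀ a, Computes (comp a) (force1 a) := by
  refine exists_compiler compFam_force1 fun a q hq => ?_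
  unfold ask
  rw [force1_eq]
  exact (mixed_sum (N := 1) (A := fun _ => timeF a q.1) (B := fun _ => oneFam)
    (C := fun _ => oneFam) (D := fun _ => oneFam) (fun _ => timeFam_timeF a q.1)
    (fun _ => circleFam_oneFam) (fun _ => circleFam_oneFam) (fun _ => circleFam_oneFam)
    q.2.1 _ hq _).symm

theorem smoothV_vel1 (a : Desc × List ℕ) : SmoothV (vel1 a) := by
  intro k
  unfold SmoothS vel1
  split_ifs
  · exact ((contDiff_const.mul contDiff_profA).comp contDiff_fst).contDiffOn
  · exact contDiffOn_const

theorem smoothV_force1 (a : Desc × List ℕ) : SmoothV (force1 a) := by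
  intro k
  unfold SmoothS force1
  split_ifs
  · exact ((contDiff_const.mul contDiff_prof).comp contDiff_fst).contDiffOn
  · exact contDiffOn_const

theorem classical1 (ν : ℝ) (a : Desc × List ℕ) (T : ℝ) :
    IsClassicalSolution ν (force1 a) T (vel1 a) (fun _ _ => 0) := by
  refine ⟨force1 a, fun _ _ _ => 0, fun _ _ _ _ => 0, fun _ _ _ => 0, ?_, ?_, ?_, ?_, ?_, ?_,
    ?_, ?_, ?_, ?_, ?_⟩
  · intro k
    unfold ContS vel1
    split_ifs
    · exact ((continuous_const.mul continuous_profA).comp continuous_fst).continuousOn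
    · exact continuousOn_const
  · intro k
    unfold ContS force1
    split_ifs
    · exact ((continuous_const.mul continuous_prof).comp continuous_fst).continuousOn
    · exact continuousOn_const
  · intro i k; exact continuousOn_const
  · intro i j k; exact continuousOn_const
  · exact continuousOn_const
  · intro i; exact continuousOn_const
  · intro t ht x
    refine ⟨?_, fun i => ?_, fun i j => ?_, fun i => ?_⟩
    · apply HasDerivAt.hasDerivWithinAt
      rw [hasDerivAt_pi]
      intro k
      unfold vel1 force1
      by_cases hk : k = 0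
      · simp only [hk, if_true]
        exact (hasDerivAt_profA t).const_mul (speed a)
      · simp only [hk, if_false]
        exact hasDerivAt_const _ _
    · exact hasDerivAt_const _ _
    · exact hasDerivAt_const _ _
    · exact hasDerivAt_const _ _
  · intro t ht x k
    simp
  · intro t ht x
    simp
  · intro x
    funext k
    simp [vel1, profA_zero]
  · intro t ht
    simp

/-- The path of the particle. -/
noncomputable def path1 (a : Desc × List ℕ) (t : ℝ) : Fin 3 → ℝ := fun k =>
  if k = 0 then speed a * profB t else 0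

theorem trajectory1 (a : Desc × List ℕ) : IsTrajectory (vel1 a) 0 (fun t => proj (path1 a t)) := by
  refine ⟨?_, path1 a, fun t _ => ⟨rfl, ?_⟩⟩
  · have : path1 a 0 = 0 := by
      funext k; simp [path1, profB_zero]
    simp only [this, proj_zero]
  · apply HasDerivAt.hasDerivWithinAt
    rw [hasDerivAt_pi]
    intro k
    unfold path1 vel1
    by_cases hk : k = 0
    · simp only [hk, if_true]
      exact (hasDerivAt_profB t).const_mul (speed a)
    · simp only [hk, if_false]
      exact hasDerivAt_const _ _

theorem trajectory1_unique (a : Desc × List ℕ) {X : ℝ → T3} (hX : IsTrajectory (vel1 a) 0 X)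
    (t : ℝ) (ht : 0 ≤ t) : X t = proj (path1 a t) := by
  obtain ⟨h0, Y, hY⟩ := hX
  have hpath : ∀ t, HasDerivAt (path1 a) (vel1 a t 0) t := by
    intro t
    rw [hasDerivAt_pi]
    intro k
    unfold path1 vel1
    by_cases hk : k = 0
    · simp only [hk, if_true]
      exact (hasDerivAt_profB t).const_mul (speed a)
    · simp only [hk, if_false]
      exact hasDerivAt_const _ _
  have h1 : ∀ s ∈ Ici (0 : ℝ), HasDerivWithinAt (fun s => Y s - path1 a s) 0 (Ici 0) s := by
    intro s hs
    have h2 := (hY s hs).2.fun_sub (hpath s).hasDerivWithinAt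
    have h3 : vel1 a s (X s) - vel1 a s 0 = 0 := by
      unfold vel1; simp
    rwa [h3] at h2
  have h2 : Y t - path1 a t = Y 0 - path1 a 0 := by
    have hfd : ∀ s ∈ Ici (0 : ℝ), fderivWithin ℝ (fun s => Y s - path1 a s) (Ici 0) s = 0 := by
      intro s hs
      have h3 := (h1 s hs).hasFDerivWithinAt
      rw [h3.fderivWithin (uniqueDiffOn_Ici 0 s hs)]
      ext; simp
    exact (convex_Ici (0 : ℝ)).is_const_of_fderivWithin_eq_zero (𝕜 := ℝ)
      (fun s hs => (h1 s hs).differentiableWithinAt) hfd ht (mem_Ici.2 le_rfl)
  have h3 : path1 a 0 = 0 := by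
    funext k; simp [path1, profB_zero]
  have h4 : Y t = path1 a t + Y 0 := by
    rw [h3, sub_zero] at h2
    rw [← h2]; abel
  rw [(hY t ht).1, h4, proj_add, ← (hY 0 le_rfl).1, h0, add_zero]

/-- The target set. -/
def target : Set T3 := {x | 1 / 4 < ‖x 0‖}

theorem isOpen_target : IsOpen target :=
  isOpen_lt continuous_const (by fun_prop)

theorem hits_iff (a : Desc × List ℕ) :
    (∃ t, 0 ≤ t ∧ proj (path1 a t) ∈ target) ↔ ∃ n, haltsAt a.1 a.2 n = true := by
  rw [← speed_pos_iff]
  constructor
  · rintro ⟨t, ht, hx⟩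
    by_contra hcon
    have h0 : speed a = 0 := le_antisymm (not_lt.1 hcon) (speed_nonneg a)
    have h1 : proj (path1 a t) = 0 := by
      have : path1 a t = 0 := by
        funext k; simp [path1, h0]
      rw [this, proj_zero]
    rw [h1] at hx
    simp only [target, mem_ofPred_eq, Pi.zero_apply, norm_zero] at hx
    linarith
  · intro hpos
    -- find `t` with `speed * profB t = 1/2`
    have hA := profA_one_pos
    set t₁ : ℝ := 1 + 1 / (speed a * profA 1) with ht₁
    have h1 : 1 ≤ t₁ := by
      rw [ht₁]; have : 0 < 1 / (speed a * profA 1) := by positivity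
      linarith
    have h2 : 1 ≤ speed a * profB t₁ := by
      have h3 := profB_ge t₁ h1
      have h4 : speed a * (profA 1 * (t₁ - 1)) = 1 := by
        rw [ht₁]; field_simp; ring
      calc (1 : ℝ) = speed a * (profA 1 * (t₁ - 1)) := h4.symm
        _ ≤ speed a * profB t₁ := mul_le_mul_of_nonneg_left h3 hpos.le
    have h3 : (1 / 2 : ℝ) ∈ (fun t => speed a * profB t) '' Icc 0 t₁ := by
      refine intermediate_value_Icc (by linarith)
        ((continuous_const.mul continuous_profB).continuousOn) ?_
      change (1 / 2 : ℝ) ∈ Icc (speed a * profB 0) (speed a * profB t₁)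
      rw [profB_zero, mul_zero]
      constructor <;> linarith
    obtain ⟨t, ht, hteq⟩ := h3
    refine ⟨t, ht.1, ?_⟩
    simp only [target, mem_ofPred_eq, proj, path1, if_true]
    simp only at hteq
    rw [hteq, UnitAddCircle.norm_eq]
    norm_num

theorem main1 : ∀ ν : ℝ, 0 < ν → ComputableReal ν →
    ∃ (a : T3) (O : Set T3) (T₀ : ℝ) (compiler : Desc × List ℕ → Nat.Partrec.Code)
      (f : (M : Machine) → M.Word → VField),
      IsOpen O ∧ 0 ≤ T₀ ∧ Computable compiler ∧
      (∀ M w, SmoothV (f M w) ∧ Computes (compiler (M.desc, M.wordDesc w)) (f M w)) ∧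
      (∀ M, ∃ P, 0 < P ∧ ∀ w w' t, T₀ ≤ t →
        f M w (t + P) = f M w t ∧ f M w t = f M w' t) ∧
      (∀ M w, ∃ (u : VField) (p : SField),
        SmoothV u ∧ SmoothS p ∧
        (∀ T, 0 < T → IsClassicalSolution ν (f M w) T u p ∧
          ∀ v q, IsClassicalSolution ν (f M w) T v q →
            ∀ t ∈ Icc 0 T, v t = u t ∧ q t = p t) ∧
        (∃ X, IsTrajectory u a X) ∧
        (∀ X, IsTrajectory u a X → ((∃ t, 0 ≤ t ∧ X t ∈ O) ↔ M.HaltsOn w))) := by
  intro ν hν _
  obtain ⟨comp, hcomp, hcomp'⟩ := exists_compiler1
  refine ⟨0, target, 1, comp, fun M w => force1 (M.desc, M.wordDesc w), isOpen_target,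
    zero_le_one, hcomp, fun M w => ⟨smoothV_force1 _, hcomp' _⟩, ?_, ?_⟩
  · intro M
    refine ⟨1, one_pos, fun w w' t ht => ?_⟩
    have hz : ∀ s, 1 ≤ s → prof s = 0 := fun s hs =>
      expNegInvGlue.zero_of_nonpos (by linarith)
    constructor
    · funext x k
      simp [force1, hz t ht, hz (t + 1) (by linarith)]
    · funext x k
      simp [force1, hz t ht]
  · intro M w
    refine ⟨vel1 (M.desc, M.wordDesc w), fun _ _ => 0, smoothV_vel1 _, contDiffOn_const, ?_, ?_, ?_⟩
    · intro T hT
      exact ⟨classical1 ν _ T, fun v q hv => eq_of_classical hν.le hT (classical1 ν _ T) hv⟩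
    · exact ⟨_, trajectory1 _⟩
    · intro X hX
      rw [haltsOn_iff, ← hits_iff (M.desc, M.wordDesc w)]
      refine exists_congr fun t => and_congr_right fun ht => ?_
      rw [trajectory1_unique _ hX t ht]

end Vale.Agent.P113
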