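import Vale.Agent.P113.Defs

namespace Vale.Agent.P113

/-- Configurations for the simulation: state, left part of the tape, right part of the tape. -/
abbrev SC : Type := ℕ × List ℕ × List ℕ

def lookup (d : Desc) (q a : ℕ) : ℕ × ℕ × ℕ := (d.2.2.2.getD q []).getD a (0, 0, 0)

def simStep (d : Desc) (c : SC) : SC :=
  if (lookup d c.1 (c.2.2.getD 0 0)).2.2 = 0 then
    ((lookup d c.1 (c.2.2.getD 0 0)).1, c.2.1.tail,
      c.2.1.getD 0 0 :: (lookup d c.1 (c.2.2.getD 0 0)).2.1 :: c.2.2.tail)
  else if (lookup d c.1 (c.2.2.getD 0 0)).2.2 = 1 then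
    ((lookup d c.1 (c.2.2.getD 0 0)).1, c.2.1,
      (lookup d c.1 (c.2.2.getD 0 0)).2.1 :: c.2.2.tail)
  else
    ((lookup d c.1 (c.2.2.getD 0 0)).1, (lookup d c.1 (c.2.2.getD 0 0)).2.1 :: c.2.1,
      c.2.2.tail)

def sim (d : Desc) (w : List ℕ) (n : ℕ) : SC := Nat.rec (0, [], w) (fun _ c => simStep d c) n

/-- The machine with description `d` is in a halting state after `n` steps on input `w`. -/
def haltsAt (d : Desc) (w : List ℕ) (n : ℕ) : Bool := d.2.2.1.getD (sim d w n).1 false

theorem primrec_simStep : Primrec₂ simStep := by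
  have d2 : Primrec fun p : Desc × SC => p.1.2.2.2 :=
    Primrec.snd.comp (Primrec.snd.comp (Primrec.snd.comp Primrec.fst))
  have c1 : Primrec fun p : Desc × SC => p.2.1 := Primrec.fst.comp Primrec.snd
  have cl : Primrec fun p : Desc × SC => p.2.2.1 := Primrec.fst.comp (Primrec.snd.comp Primrec.snd)
  have cr : Primrec fun p : Desc × SC => p.2.2.2 := Primrec.snd.comp (Primrec.snd.comp Primrec.snd)
  have cr0 : Primrec fun p : Desc × SC => p.2.2.2.getD 0 0 :=
    (Primrec.list_getD 0).comp cr (Primrec.const 0)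
  have cl0 : Primrec fun p : Desc × SC => p.2.2.1.getD 0 0 :=
    (Primrec.list_getD 0).comp cl (Primrec.const 0)
  have crt : Primrec fun p : Desc × SC => p.2.2.2.tail := Primrec.list_tail.comp cr
  have clt : Primrec fun p : Desc × SC => p.2.2.1.tail := Primrec.list_tail.comp cl
  have hr : Primrec fun p : Desc × SC => lookup p.1 p.2.1 (p.2.2.2.getD 0 0) :=
    (Primrec.list_getD _).comp ((Primrec.list_getD _).comp d2 c1) cr0
  have r1 := Primrec.fst.comp hr
  have r2 := Primrec.fst.comp (Primrec.snd.comp hr)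
  have r3 := Primrec.snd.comp (Primrec.snd.comp hr)
  exact Primrec.ite (Primrec.eq.comp r3 (Primrec.const 0))
    (Primrec.pair r1 (Primrec.pair clt (Primrec.list_cons.comp cl0 (Primrec.list_cons.comp r2 crt))))
    (Primrec.ite (Primrec.eq.comp r3 (Primrec.const 1))
      (Primrec.pair r1 (Primrec.pair cl (Primrec.list_cons.comp r2 crt)))
      (Primrec.pair r1 (Primrec.pair (Primrec.list_cons.comp r2 cl) crt)))

theorem primrec_sim : Primrec fun p : (Desc × List ℕ) × ℕ => sim p.1.1 p.1.2 p.2 := by
  refine Primrec.nat_rec' (f := fun p : (Desc × List ℕ) × ℕ => p.2)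
    (g := fun p => ((0, [], p.1.2) : SC))
    (h := fun (p : (Desc × List ℕ) × ℕ) (q : ℕ × SC) => simStep p.1.1 q.2)
    Primrec.snd ?_ ?_
  · exact Primrec.pair (Primrec.const _)
      (Primrec.pair (Primrec.const _) (Primrec.snd.comp Primrec.fst))
  · exact primrec_simStep.comp (Primrec.fst.comp (Primrec.fst.comp Primrec.fst))
      (Primrec.snd.comp Primrec.snd)

theorem primrec_haltsAt : Primrec fun p : (Desc × List ℕ) × ℕ => haltsAt p.1.1 p.1.2 p.2 := by
  refine (Primrec.list_getD false).comp ?_ (Primrec.fst.comp primrec_sim)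
  exact Primrec.fst.comp (Primrec.snd.comp (Primrec.snd.comp (Primrec.fst.comp Primrec.fst)))

/-- The simulation relation. -/
def Rel (M : Machine) (c : Config M) (s : SC) : Prop :=
  s.1 = c.state ∧ (∀ i : ℕ, s.2.2.getD i 0 = c.tape (c.head + i)) ∧
    (∀ i : ℕ, s.2.1.getD i 0 = c.tape (c.head - 1 - i))

theorem lookup_desc (M : Machine) (q : Fin (M.states + 1)) (a : Fin (M.symbols + 1)) :
    lookup M.desc q a = (((M.rule q a).1 : ℕ), ((M.rule q a).2.1 : ℕ), ((M.rule q a).2.2 : ℕ)) := by
  unfold lookup Machine.desc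
  have h1 : (List.ofFn fun q => List.ofFn fun a =>
      (((M.rule q a).1 : ℕ), ((M.rule q a).2.1 : ℕ), ((M.rule q a).2.2 : ℕ))).getD (q : ℕ) []
      = List.ofFn fun a =>
      (((M.rule q a).1 : ℕ), ((M.rule q a).2.1 : ℕ), ((M.rule q a).2.2 : ℕ)) := by
    rw [List.getD_eq_getElem?_getD, List.getElem?_ofFn]
    simp [q.2]
  simp only
  rw [h1, List.getD_eq_getElem?_getD, List.getElem?_ofFn]
  simp [a.2]

theorem getD_tail {β : Type} (l : List β) (i : ℕ) (x : β) : l.tail.getD i x = l.getD (i + 1) x := by
  cases l <;> simp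

theorem rel_init (M : Machine) (w : M.Word) : Rel M (M.init w) (0, [], M.wordDesc w) := by
  refine ⟨rfl, fun i => ?_, fun i => ?_⟩
  · simp only [Machine.init, Machine.wordDesc]
    have h1 : (0 : ℤ) ≤ 0 + (i : ℤ) := by omega
    rw [if_pos h1]
    have h2 : (0 + (i : ℤ)).toNat = i := by omega
    rw [h2, List.getD_eq_getElem?_getD, List.getD_eq_getElem?_getD, List.getElem?_map]
    cases w[i]? <;> simp
  · simp only [Machine.init]
    have h1 : ¬ ((0 : ℤ) ≤ 0 - 1 - (i : ℤ)) := by omega
    rw [if_neg h1]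
    simp

theorem rel_step (M : Machine) (c : Config M) (s : SC) (h : Rel M c s) :
    Rel M (M.step c) (simStep M.desc s) := by
  obtain ⟨h1, h2, h3⟩ := h
  have hr : lookup M.desc s.1 (s.2.2.getD 0 0) = (((M.rule c.state (c.tape c.head)).1 : ℕ),
      ((M.rule c.state (c.tape c.head)).2.1 : ℕ), ((M.rule c.state (c.tape c.head)).2.2 : ℕ)) := by
    rw [h1, h2 0]
    simp only [Nat.cast_zero, add_zero]
    exact lookup_desc M _ _
  set r := M.rule c.state (c.tape c.head) with hrdef
  unfold simStep
  rw [hr]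
  have hupd : ∀ z, z ≠ c.head → (M.step c).tape z = c.tape z := by
    intro z hz
    simp [Machine.step, Function.update_of_ne hz]
  have hupd' : (M.step c).tape c.head = r.2.1 := by
    simp [Machine.step, hrdef]
  have hhead : (M.step c).head = c.head + ((r.2.2 : ℕ) : ℤ) - 1 := by
    simp [Machine.step, hrdef]
  have hstate : (M.step c).state = r.1 := by simp [Machine.step, hrdef]
  have hlt : (r.2.2 : ℕ) < 3 := r.2.2.2
  by_cases hd0 : (r.2.2 : ℕ) = 0
  · simp only [hd0, if_true]
    have hhead' : (M.step c).head = c.head - 1 := by rw [hhead, hd0]; simp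
    refine ⟨by rw [hstate], fun i => ?_, fun i => ?_⟩
    · rw [hhead']
      rcases i with _ | _ | i
      · have : c.head - 1 + ((0 : ℕ) : ℤ) ≠ c.head := by simp
        rw [hupd _ this]
        have := h3 0
        simpa using this
      · have : c.head - 1 + ((0 + 1 : ℕ) : ℤ) = c.head := by simp
        rw [this, hupd']
        simp
      · have h4 : c.head - 1 + ((i + 1 + 1 : ℕ) : ℤ) ≠ c.head := by push_cast; omega
        rw [hupd _ h4]
        have h5 := h2 (i + 1)
        have h6 : c.head - 1 + ((i + 1 + 1 : ℕ) : ℤ) = c.head + ((i + 1 : ℕ) : ℤ) := by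
          push_cast; ring
        rw [h6, ← h5]
        simp only [List.getD_cons_succ]
        rw [getD_tail]
    · rw [hhead']
      have h4 : c.head - 1 - 1 - (i : ℤ) ≠ c.head := by omega
      rw [hupd _ h4]
      have h5 := h3 (i + 1)
      have h6 : c.head - 1 - 1 - (i : ℤ) = c.head - 1 - ((i + 1 : ℕ) : ℤ) := by push_cast; ring
      rw [h6, ← h5]
      exact getD_tail _ _ _
  · by_cases hd1 : (r.2.2 : ℕ) = 1
    · simp only [hd1, if_true, one_ne_zero, if_false]
      have hhead' : (M.step c).head = c.head := by rw [hhead, hd1]; simp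
      refine ⟨by rw [hstate], fun i => ?_, fun i => ?_⟩
      · rw [hhead']
        rcases i with _ | i
        · have : c.head + ((0 : ℕ) : ℤ) = c.head := by simp
          rw [this, hupd']
          simp
        · have h4 : c.head + ((i + 1 : ℕ) : ℤ) ≠ c.head := by push_cast; omega
          rw [hupd _ h4, ← h2 (i + 1)]
          simp only [List.getD_cons_succ]
          rw [getD_tail]
      · rw [hhead']
        have h4 : c.head - 1 - (i : ℤ) ≠ c.head := by omega
        rw [hupd _ h4]
        exact h3 i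
    · have hd2 : (r.2.2 : ℕ) = 2 := by omega
      simp only [hd2]
      have hhead' : (M.step c).head = c.head + 1 := by rw [hhead, hd2]; push_cast; ring
      refine ⟨by simp [hstate], fun i => ?_, fun i => ?_⟩
      · rw [hhead']
        have h4 : c.head + 1 + (i : ℤ) ≠ c.head := by omega
        rw [hupd _ h4]
        have h6 : c.head + 1 + (i : ℤ) = c.head + ((i + 1 : ℕ) : ℤ) := by push_cast; ring
        rw [h6, ← h2 (i + 1)]
        simp
      · rw [hhead']
        rcases i with _ | i
        · have : c.head + 1 - 1 - ((0 : ℕ) : ℤ) = c.head := by simp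
          rw [this, hupd']
          simp
        · have h4 : c.head + 1 - 1 - ((i + 1 : ℕ) : ℤ) ≠ c.head := by push_cast; omega
          rw [hupd _ h4]
          have h6 : c.head + 1 - 1 - ((i + 1 : ℕ) : ℤ) = c.head - 1 - (i : ℤ) := by
            push_cast; ring
          rw [h6, ← h3 i]
          simp

theorem rel_sim (M : Machine) (w : M.Word) (n : ℕ) :
    Rel M ((M.step^[n]) (M.init w)) (sim M.desc (M.wordDesc w) n) := by
  induction n with
  | zero => exact rel_init M w
  | succ n ih =>
    rw [Function.iterate_succ_apply']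
    exact rel_step M _ _ ih

theorem haltsAt_iff (M : Machine) (w : M.Word) (n : ℕ) :
    haltsAt M.desc (M.wordDesc w) n = true ↔
      M.halting ((M.step^[n]) (M.init w)).state = true := by
  unfold haltsAt
  rw [(rel_sim M w n).1]
  have : M.desc.2.2.1 = List.ofFn M.halting := rfl
  rw [this, List.getD_eq_getElem?_getD, List.getElem?_ofFn]
  simp [((M.step^[n]) (M.init w)).state.2]

theorem haltsOn_iff (M : Machine) (w : M.Word) :
    M.HaltsOn w ↔ ∃ n, haltsAt M.desc (M.wordDesc w) n = true := by
  unfold Machine.HaltsOn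
  exact exists_congr fun n => (haltsAt_iff M w n).symm

end Vale.Agent.P113
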