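import Vale.Agent.P113.Torus
import Vale.Agent.P113.Psi

open MeasureTheory Set Filter Topology

namespace Vale.Agent.P113

/-- A sequence of functions on the circle, each the derivative of the previous one. -/
def CircleFam (B : ℕ → UnitAddCircle → ℝ) : Prop :=
  ∀ n x, HasDerivAt (fun s : ℝ => B n (x + (s : UnitAddCircle))) (B (n + 1) x) 0

/-- A sequence of functions of time, each the derivative of the previous one. -/
def TimeFam (A : ℕ → ℝ → ℝ) : Prop := ∀ n t, HasDerivAt (A n) (A (n + 1) t) t

/-- Tensor products. -/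
def tensor (A : ℕ → ℝ → ℝ) (B C D : ℕ → UnitAddCircle → ℝ) (n : ℕ × ℕ × ℕ × ℕ) : SField :=
  fun t x => A n.1 t * B n.2.1 (x 0) * C n.2.2.1 (x 1) * D n.2.2.2 (x 2)

/-- The orders of differentiation of a list of directions. -/
def orders (l : List (Option (Fin 3))) : ℕ × ℕ × ℕ × ℕ :=
  (l.count none, l.count (some 0), l.count (some 1), l.count (some 2))

theorem move_apply_self (i : Fin 3) (s : ℝ) (x : T3) :
    (move i s x) i = x i + (s : UnitAddCircle) := by
  simp [move, proj]

theorem move_apply_ne {i j : Fin 3} (h : j ≠ i) (s : ℝ) (x : T3) :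
    (move i s x) j = x j := by
  simp [move, proj, Pi.single_eq_of_ne h]

theorem hasDerivAt_tensor0 {A : ℕ → ℝ → ℝ} {B C D : ℕ → UnitAddCircle → ℝ}
    (hB : CircleFam B) (a b c d : ℕ) (t : ℝ) (x : T3) :
    HasDerivAt (fun s => tensor A B C D (a, b, c, d) t (move 0 s x))
      (tensor A B C D (a, b + 1, c, d) t x) 0 := by
  simp only [tensor]
  have h1 := ((hB b (x 0)).const_mul (A a t)).mul_const (C c (x 1)) |>.mul_const (D d (x 2))
  refine h1.congr_of_eventuallyEq (Eventually.of_forall fun s => ?_)
  simp [move_apply_self, move_apply_ne]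

theorem hasDerivAt_tensor1 {A : ℕ → ℝ → ℝ} {B C D : ℕ → UnitAddCircle → ℝ}
    (hC : CircleFam C) (a b c d : ℕ) (t : ℝ) (x : T3) :
    HasDerivAt (fun s => tensor A B C D (a, b, c, d) t (move 1 s x))
      (tensor A B C D (a, b, c + 1, d) t x) 0 := by
  simp only [tensor]
  have h1 := ((hC c (x 1)).const_mul (A a t * B b (x 0))).mul_const (D d (x 2))
  refine h1.congr_of_eventuallyEq (Eventually.of_forall fun s => ?_)
  simp [move_apply_self, move_apply_ne]

theorem hasDerivAt_tensor2 {A : ℕ → ℝ → ℝ} {B C D : ℕ → UnitAddCircle → ℝ}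
    (hD : CircleFam D) (a b c d : ℕ) (t : ℝ) (x : T3) :
    HasDerivAt (fun s => tensor A B C D (a, b, c, d) t (move 2 s x))
      (tensor A B C D (a, b, c, d + 1) t x) 0 := by
  simp only [tensor]
  have h1 := (hD d (x 2)).const_mul (A a t * B b (x 0) * C c (x 1))
  refine h1.congr_of_eventuallyEq (Eventually.of_forall fun s => ?_)
  simp [move_apply_self, move_apply_ne]

theorem hasDerivAt_tensorT {A : ℕ → ℝ → ℝ} {B C D : ℕ → UnitAddCircle → ℝ}
    (hA : TimeFam A) (a b c d : ℕ) (t : ℝ) (x : T3) :
    HasDerivAt (fun s => tensor A B C D (a, b, c, d) s x)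
      (tensor A B C D (a + 1, b, c, d) t x) t := by
  simp only [tensor]
  exact (((hA a t).mul_const (B b (x 0))).mul_const (C c (x 1))).mul_const (D d (x 2))

/-- Finite sums of tensor products, indexed by `Fin N`. -/
theorem mixed_sum {N : ℕ} {A : Fin N → ℕ → ℝ → ℝ} {B C D : Fin N → ℕ → UnitAddCircle → ℝ}
    (hA : ∀ j, TimeFam (A j)) (hB : ∀ j, CircleFam (B j)) (hC : ∀ j, CircleFam (C j))
    (hD : ∀ j, CircleFam (D j)) (l : List (Option (Fin 3))) :
    ∀ t, 0 ≤ t → ∀ x,
    mixed l (fun t x => ∑ j, tensor (A j) (B j) (C j) (D j) (0, 0, 0, 0) t x) t x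
      = ∑ j, tensor (A j) (B j) (C j) (D j) (orders l) t x := by
  induction l with
  | nil => intro t _ x; rfl
  | cons d l ih =>
    intro t ht x
    rcases d with _ | i
    · have h1 : HasDerivWithinAt
          (fun s => mixed l (fun t x => ∑ j, tensor (A j) (B j) (C j) (D j) (0, 0, 0, 0) t x) s x)
          (∑ j, tensor (A j) (B j) (C j) (D j) (orders (none :: l)) t x) (Ici 0) t := by
        have h2 : HasDerivAt (fun s => ∑ j, tensor (A j) (B j) (C j) (D j) (orders l) s x)
            (∑ j, tensor (A j) (B j) (C j) (D j) (orders (none :: l)) t x) t := by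
          refine HasDerivAt.fun_sum fun j _ => ?_
          have h3 := hasDerivAt_tensorT (B := B j) (C := C j) (D := D j) (hA j)
            (l.count none) (l.count (some 0)) (l.count (some 1)) (l.count (some 2)) t x
          simpa [orders] using h3
        exact h2.hasDerivWithinAt.congr (fun s hs => ih s hs x) (ih t ht x)
      exact h1.derivWithin (uniqueDiffOn_Ici 0 t ht)
    · have h1 : HasDerivAt (fun s => ∑ j, tensor (A j) (B j) (C j) (D j) (orders l) t (move i s x))
            (∑ j, tensor (A j) (B j) (C j) (D j) (orders (some i :: l)) t x) 0 := by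
        refine HasDerivAt.fun_sum fun j _ => ?_
        fin_cases i
        · have h3 := hasDerivAt_tensor0 (A := A j) (C := C j) (D := D j) (hB j)
            (l.count none) (l.count (some 0)) (l.count (some 1)) (l.count (some 2)) t x
          simpa [orders] using h3
        · have h3 := hasDerivAt_tensor1 (A := A j) (B := B j) (D := D j) (hC j)
            (l.count none) (l.count (some 0)) (l.count (some 1)) (l.count (some 2)) t x
          simpa [orders] using h3
        · have h3 := hasDerivAt_tensor2 (A := A j) (B := B j) (C := C j) (hD j)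
            (l.count none) (l.count (some 0)) (l.count (some 1)) (l.count (some 2)) t x
          simpa [orders] using h3
      have h2 : HasDerivAt (fun s => mixed l
          (fun t x => ∑ j, tensor (A j) (B j) (C j) (D j) (0, 0, 0, 0) t x) t (move i s x))
            (∑ j, tensor (A j) (B j) (C j) (D j) (orders (some i :: l)) t x) 0 :=
        h1.congr_of_eventuallyEq (Eventually.of_forall fun s => ih t ht _)
      exact h2.deriv

end Vale.Agent.P113
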