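import Vale.Agent.P113.Defs

open MeasureTheory Set Filter Topology

namespace Vale.Agent.P113

theorem proj_zero : proj 0 = 0 := by
  funext i; simp [proj]

theorem proj_add (x y : Fin 3 → ℝ) : proj (x + y) = proj x + proj y := by
  funext i; simp [proj]

theorem continuous_proj : Continuous proj := by
  unfold proj
  refine continuous_pi fun i => ?_
  exact (AddCircle.continuous_mk' (1 : ℝ)).comp (continuous_apply i)

theorem move_zero (i : Fin 3) (x : T3) : move i 0 x = x := by
  simp [move, proj_zero]

theorem move_move (i : Fin 3) (s t : ℝ) (x : T3) : move i s (move i t x) = move i (s + t) x := by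
  simp only [move, add_assoc, ← proj_add, ← Pi.single_add]
  rw [add_comm t s]

theorem continuous_move (i : Fin 3) (s : ℝ) : Continuous (move i s) := by
  unfold move
  exact continuous_id.add continuous_const

theorem integrable_of_cont {g : T3 → ℝ} (hg : Continuous g) : Integrable g :=
  hg.integrable_of_hasCompactSupport (HasCompactSupport.of_compactSpace g)

theorem integral_move (i : Fin 3) (s : ℝ) (g : T3 → ℝ) : ∫ x, g (move i s x) = ∫ x, g x := by
  unfold move
  exact integral_add_right_eq_self g _

theorem hasDerivAt_move {i : Fin 3} {g g' : T3 → ℝ}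
    (h : ∀ x, HasDerivAt (fun s => g (move i s x)) (g' x) 0) (x : T3) (s : ℝ) :
    HasDerivAt (fun s => g (move i s x)) (g' (move i s x)) s := by
  have h1 := h (move i s x)
  have h2 : HasDerivAt (fun r => g (move i r (move i s x))) (g' (move i s x)) (s - s) := by
    simpa using h1
  have h3 := h2.comp_sub_const s s
  refine h3.congr_of_eventuallyEq (Eventually.of_forall fun r => ?_)
  simp [move_move]

theorem bound_of_cont {g : T3 → ℝ} (hg : Continuous g) : ∃ C, ∀ x, |g x| ≤ C := by
  obtain ⟨C, hC⟩ := isCompact_univ.exists_bound_of_continuousOn (s := (univ : Set T3))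
    hg.continuousOn
  exact ⟨C, fun x => hC x (mem_univ x)⟩

/-- Integral of a spatial derivative vanishes. -/
theorem integral_deriv_eq_zero {i : Fin 3} {g g' : T3 → ℝ} (hg : Continuous g)
    (hg' : Continuous g') (h : ∀ x, HasDerivAt (fun s => g (move i s x)) (g' x) 0) :
    ∫ x, g' x = 0 := by
  obtain ⟨C, hC⟩ := bound_of_cont hg'
  have key := hasDerivAt_integral_of_dominated_loc_of_deriv_le (μ := (volume : Measure T3))
    (F := fun (s : ℝ) x => g (move i s x)) (F' := fun (s : ℝ) x => g' (move i s x)) (x₀ := (0 : ℝ))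
    (bound := fun _ => C) (s := univ) univ_mem
    (Eventually.of_forall fun s => (hg.comp (continuous_move i s)).aestronglyMeasurable)
    (by simpa [move_zero] using integrable_of_cont hg)
    ((hg'.comp (continuous_move i 0)).aestronglyMeasurable)
    (Eventually.of_forall fun x s _ => hC _)
    (integrable_const C)
    (Eventually.of_forall fun x s _ => hasDerivAt_move h x s)
  have h1 := key.2
  simp only [integral_move] at h1
  have h2 : HasDerivAt (fun _ : ℝ => ∫ x, g x) 0 (0 : ℝ) := hasDerivAt_const _ _
  exact h1.unique h2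

theorem ContS.slice {T : ℝ} {g : SField} (hg : ContS T g) {t : ℝ} (ht : t ∈ Icc 0 T) :
    Continuous (g t) := by
  rw [← continuousOn_univ]
  exact hg.comp (f := fun x => (t, x)) (by fun_prop) (fun x _ => ⟨ht, mem_univ _⟩)

theorem ContS.time {T : ℝ} {g : SField} (hg : ContS T g) (x : T3) :
    ContinuousOn (fun t => g t x) (Icc 0 T) :=
  hg.comp (f := fun t => (t, x)) (by fun_prop) (fun t ht => ⟨ht, mem_univ _⟩)

theorem ContS.bound {T : ℝ} {g : SField} (hg : ContS T g) :
    ∃ C, 0 ≤ C ∧ ∀ t ∈ Icc 0 T, ∀ x, |g t x| ≤ C := by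
  obtain ⟨C, hC⟩ := (isCompact_Icc.prod isCompact_univ).exists_bound_of_continuousOn hg
  exact ⟨|C|, abs_nonneg _, fun t ht x => (hC (t, x) ⟨ht, mem_univ _⟩).trans (le_abs_self C)⟩

theorem ContS.add {T : ℝ} {g h : SField} (hg : ContS T g) (hh : ContS T h) :
    ContS T (fun t x => g t x + h t x) := ContinuousOn.add hg hh

theorem ContS.sub {T : ℝ} {g h : SField} (hg : ContS T g) (hh : ContS T h) :
    ContS T (fun t x => g t x - h t x) := ContinuousOn.sub hg hh

theorem ContS.mul {T : ℝ} {g h : SField} (hg : ContS T g) (hh : ContS T h) :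
    ContS T (fun t x => g t x * h t x) := ContinuousOn.mul hg hh

theorem ContS.const {T : ℝ} (c : ℝ) : ContS T (fun _ _ => c) := continuousOn_const

theorem ContS.sum {T : ℝ} {g : Fin 3 → SField} (hg : ∀ i, ContS T (g i)) :
    ContS T (fun t x => ∑ i, g i t x) := by
  unfold ContS
  exact continuousOn_finsetSum _ fun i _ => hg i

/-- Derivative of the integral of a field. -/
theorem hasDerivAt_integral {T : ℝ} {g g' : SField} (hg : ContS T g) (hg' : ContS T g')
    (h : ∀ t ∈ Ioo 0 T, ∀ x, HasDerivAt (fun s => g s x) (g' t x) t) {t : ℝ} (ht : t ∈ Ioo 0 T) :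
    HasDerivAt (fun s => ∫ x, g s x) (∫ x, g' t x) t := by
  obtain ⟨C, -, hC⟩ := hg'.bound
  have key := hasDerivAt_integral_of_dominated_loc_of_deriv_le (μ := (volume : Measure T3))
    (F := g) (F' := g') (x₀ := t)
    (bound := fun _ => C) (s := Ioo 0 T) (Ioo_mem_nhds ht.1 ht.2)
    (by
      filter_upwards [Ioo_mem_nhds ht.1 ht.2] with s hs
      exact (hg.slice (Ioo_subset_Icc_self hs)).aestronglyMeasurable)
    (integrable_of_cont (hg.slice (Ioo_subset_Icc_self ht)))
    ((hg'.slice (Ioo_subset_Icc_self ht)).aestronglyMeasurable)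
    (Eventually.of_forall fun x s hs => hC s (Ioo_subset_Icc_self hs) x)
    (integrable_const C)
    (Eventually.of_forall fun x s hs => h s hs x)
  exact key.2

theorem continuousOn_integral {T : ℝ} {g : SField} (hg : ContS T g) :
    ContinuousOn (fun s => ∫ x, g s x) (Icc 0 T) := by
  obtain ⟨C, -, hC⟩ := hg.bound
  exact continuousOn_of_dominated (bound := fun _ => C)
    (fun s hs => (hg.slice hs).aestronglyMeasurable)
    (fun s hs => Eventually.of_forall fun x => hC s hs x)
    (integrable_const C)
    (Eventually.of_forall fun x => hg.time x)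

end Vale.Agent.P113
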